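import Mathlib.Analysis.Calculus.SmoothSeries
import Mathlib.Analysis.Calculus.MeanValue
import Mathlib.Analysis.SpecialFunctions.Integrals.Basic
import Mathlib.MeasureTheory.Integral.IntervalIntegral.FundThmCalculus
import Mathlib.Analysis.Normed.Operator.Banach
import Mathlib.Tactic

/-!
P253 (helper51): global solutions of linear differential equations with continuous coefficients,
frames and their inverses.

* `exists_frame` : in a complete normed algebra `A' = -N A`, `B' = B N`, `A 0 = B 0 = 1`,
  `A B = B A = 1`;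
* `exists_frame_clm` : the same for continuous linear maps, in the form `IsUnit (A t)`;
* `exists_linear_ode` : `y' = L y`, `y t₀ = y₀` has a solution on the whole line;
* `linear_ode_unique` : it is unique.
-/

open MeasureTheory Set Filter Topology
open scoped Interval

noncomputable section

namespace Vale.Agent.P253.H51

section Alg

variable {R : Type*} [NormedRing R] [NormedAlgebra ℝ R] [CompleteSpace R]

/-- Dyson series terms -/
def dyson (a : ℝ → R) : ℕ → ℝ → R
  | 0 => fun _ => 1
  | n + 1 => fun t => ∫ s in (0 : ℝ)..t, a s * dyson a n s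

omit [CompleteSpace R] in
theorem dyson_continuous {a : ℝ → R} (ha : Continuous a) (n : ℕ) : Continuous (dyson a n) := by
  induction n with
  | zero => exact continuous_const
  | succ n ih =>
    exact intervalIntegral.continuous_primitive
      (fun x y => (ha.mul ih).intervalIntegrable x y) 0

theorem dyson_hasDerivAt {a : ℝ → R} (ha : Continuous a) (n : ℕ) (t : ℝ) :
    HasDerivAt (dyson a (n + 1)) (a t * dyson a n t) t := by
  have hc := ha.mul (dyson_continuous ha n)
  exact intervalIntegral.integral_hasDerivAt_right (hc.intervalIntegrable 0 t)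
    (hc.stronglyMeasurableAtFilter _ _) hc.continuousAt

omit [CompleteSpace R] in
theorem dyson_norm_le {a : ℝ → R} (ha : Continuous a) {M ρ : ℝ} (hM : 0 ≤ M)
    (hb : ∀ t, |t| ≤ ρ → ‖a t‖ ≤ M) (n : ℕ) (t : ℝ) (ht : |t| ≤ ρ) :
    ‖dyson a n t‖ ≤ ‖(1 : R)‖ * ((M * |t|) ^ n / n.factorial) := by
  induction n generalizing t with
  | zero => simp [dyson]
  | succ n ih =>
    have hc := ha.mul (dyson_continuous ha n)
    calc ‖dyson a (n + 1) t‖ ≤ ∫ s in Ι 0 t, ‖a s * dyson a n s‖ :=
          intervalIntegral.norm_integral_le_integral_norm_uIoc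
      _ ≤ ∫ s in Ι 0 t, (‖(1 : R)‖ * (M ^ (n + 1) / n.factorial)) * |s - 0| ^ n := by
          refine setIntegral_mono_on ?_ ?_ measurableSet_uIoc fun s hs => ?_
          · exact (hc.norm.intervalIntegrable 0 t).def'
          · have : Continuous fun s : ℝ =>
                (‖(1 : R)‖ * (M ^ (n + 1) / n.factorial)) * |s - 0| ^ n := by fun_prop
            exact (this.intervalIntegrable 0 t).def'
          · have hst : |s| ≤ ρ := by
              refine le_trans ?_ ht
              rw [mem_uIoc] at hs
              rcases hs with h | h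
              · rw [abs_of_pos h.1, abs_of_pos (h.1.trans_le h.2)]; exact h.2
              · rw [abs_of_nonpos h.2, abs_of_neg (h.1.trans_le h.2)]; linarith [h.1]
            calc ‖a s * dyson a n s‖ ≤ ‖a s‖ * ‖dyson a n s‖ := norm_mul_le _ _
              _ ≤ M * (‖(1 : R)‖ * ((M * |s|) ^ n / n.factorial)) := by
                  gcongr
                  · exact hb s hst
                  · exact ih s hst
              _ = (‖(1 : R)‖ * (M ^ (n + 1) / n.factorial)) * |s - 0| ^ n := by
                  rw [sub_zero, mul_pow, pow_succ]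
                  ring
      _ = ‖(1 : R)‖ * ((M * |t|) ^ (n + 1) / (n + 1).factorial) := by
          rw [MeasureTheory.integral_const_mul, integral_pow_abs_sub_uIoc, sub_zero,
            Nat.factorial_succ, mul_pow]
          push_cast
          field_simp

omit [NormedAlgebra ℝ R] [CompleteSpace R] in
theorem exists_bound {a : ℝ → R} (ha : Continuous a) (ρ : ℝ) :
    ∃ M : ℝ, 0 ≤ M ∧ ∀ t, |t| ≤ ρ → ‖a t‖ ≤ M := by
  obtain ⟨M, hM⟩ := (isCompact_Icc (a := -ρ) (b := ρ)).exists_bound_of_continuousOn ha.continuousOn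
  exact ⟨max M 0, le_max_right _ _, fun t ht => (hM t (abs_le.1 ht)).trans (le_max_left _ _)⟩

theorem dyson_summable {a : ℝ → R} (ha : Continuous a) (t : ℝ) :
    Summable (fun n => dyson a n t) := by
  obtain ⟨M, hM, hb⟩ := exists_bound ha |t|
  refine Summable.of_norm_bounded (g := fun n => ‖(1 : R)‖ * ((M * |t|) ^ n / n.factorial))
    ((Real.summable_pow_div_factorial _).mul_left _) fun n => dyson_norm_le ha hM hb n t le_rfl

/-- global solution of `U' = a U` in a complete normed algebra -/
theorem exists_dyson {a : ℝ → R} (ha : Continuous a) :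
    ∃ U : ℝ → R, U 0 = 1 ∧ ∀ t, HasDerivAt U (a t * U t) t := by
  refine ⟨fun t => ∑' n, dyson a n t, ?_, fun t => ?_⟩
  · show ∑' n, dyson a n 0 = 1
    rw [tsum_eq_single 0]
    · rfl
    · intro n hn
      obtain ⟨m, rfl⟩ := Nat.exists_eq_succ_of_ne_zero hn
      simp [dyson]
  · set ρ := |t| + 1 with hρ
    have hρ0 : 0 < ρ := by positivity
    obtain ⟨M, hM, hb⟩ := exists_bound ha ρ
    set g' : ℕ → ℝ → R := fun n y => match n with
      | 0 => 0
      | n + 1 => a y * dyson a n y with hg'
    set u : ℕ → ℝ := fun n => match n with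
      | 0 => 0
      | n + 1 => M * (‖(1 : R)‖ * ((M * ρ) ^ n / n.factorial)) with hu
    have hus : Summable u := by
      rw [← summable_nat_add_iff 1]
      exact ((Real.summable_pow_div_factorial _).mul_left _).mul_left _
    have h := hasDerivAt_tsum_of_isPreconnected (g := dyson a) (g' := g') (u := u)
      (t := Metric.ball (0 : ℝ) ρ) (y₀ := t) (y := t) hus Metric.isOpen_ball
      (convex_ball (0 : ℝ) ρ).isPreconnected ?_ ?_ ?_ (dyson_summable ha t) ?_
    · have h2 : ∑' n, g' n t = a t * ∑' n, dyson a n t := by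
        have hs : Summable (fun n => g' n t) := by
          rw [← summable_nat_add_iff 1]
          exact (dyson_summable ha t).mul_left (a t)
        rw [hs.tsum_eq_zero_add]
        simp only [hg', zero_add]
        exact (dyson_summable ha t).tsum_mul_left (a t)
      rw [h2] at h
      exact h
    · intro n y _
      cases n with
      | zero => exact hasDerivAt_const y 1
      | succ n => exact dyson_hasDerivAt ha n y
    · intro n y hy
      rw [Metric.mem_ball, dist_zero_right, Real.norm_eq_abs] at hy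
      cases n with
      | zero => simp [hg', hu]
      | succ n =>
        simp only [hg', hu]
        calc ‖a y * dyson a n y‖ ≤ ‖a y‖ * ‖dyson a n y‖ := norm_mul_le _ _
          _ ≤ M * (‖(1 : R)‖ * ((M * |y|) ^ n / n.factorial)) := by
              gcongr
              · exact hb y hy.le
              · exact dyson_norm_le ha hM hb n y hy.le
          _ ≤ M * (‖(1 : R)‖ * ((M * ρ) ^ n / n.factorial)) := by (clear * - hM hy; gcongr)
    · rw [Metric.mem_ball, dist_zero_right, Real.norm_eq_abs]
      linarith only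
    · rw [Metric.mem_ball, dist_zero_right, Real.norm_eq_abs]
      linarith only

/-- global solution of `U' = U a` -/
theorem exists_dyson_right {a : ℝ → R} (ha : Continuous a) :
    ∃ U : ℝ → R, U 0 = 1 ∧ ∀ t, HasDerivAt U (U t * a t) t := by
  obtain ⟨V, hV0, hV⟩ := exists_dyson (R := Rᵐᵒᵖ) (a := fun t => MulOpposite.op (a t))
    (MulOpposite.continuous_op.comp ha)
  refine ⟨fun t => (V t).unop, by simp [hV0], fun t => ?_⟩
  have h1 := ((MulOpposite.opContinuousLinearEquiv ℝ (M := R)).symm.toContinuousLinearMap.hasFDerivAt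
    (x := V t)).comp_hasDerivAt t (hV t)
  exact h1

/-- **frame**: a global invertible solution of `A' = -N A`, with its inverse -/
theorem exists_frame {N : ℝ → R} (hN : Continuous N) :
    ∃ A B : ℝ → R, A 0 = 1 ∧ B 0 = 1 ∧ (∀ t, HasDerivAt A (-(N t * A t)) t) ∧
      (∀ t, HasDerivAt B (B t * N t) t) ∧ (∀ t, B t * A t = 1) ∧ ∀ t, A t * B t = 1 := by
  obtain ⟨A, hA0, hA⟩ := exists_dyson (a := fun t => -N t) hN.neg
  obtain ⟨B, hB0, hB⟩ := exists_dyson_right (a := N) hN
  have hA' : ∀ t, HasDerivAt A (-(N t * A t)) t := fun t => by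
    have := hA t
    rwa [neg_mul] at this
  have hBA : ∀ t, B t * A t = 1 := by
    intro t
    have hd : ∀ s, HasDerivAt (fun s => B s * A s) 0 s := fun s => by
      have := (hB s).mul (hA' s)
      refine this.congr_deriv ?_
      rw [mul_neg, mul_assoc, add_neg_cancel]
    have h1 := is_const_of_deriv_eq_zero (f := fun s => B s * A s)
      (fun s => (hd s).differentiableAt) (fun s => (hd s).deriv) t 0
    simp only [hA0, hB0, mul_one] at h1
    exact h1
  have hAc : Continuous A := continuous_iff_continuousAt.2 fun t => (hA t).continuousAt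
  have hBc : Continuous B := continuous_iff_continuousAt.2 fun t => (hB t).continuousAt
  refine ⟨A, B, hA0, hB0, hA', hB, hBA, fun t => ?_⟩
  set Q : ℝ → R := fun t => 1 - A t * B t with hQ
  have hQQ : ∀ t, Q t * Q t = Q t := fun t => by
    have h1 : A t * B t * (A t * B t) = A t * B t := by
      rw [mul_assoc, ← mul_assoc (B t), hBA, one_mul]
    simp only [hQ]
    rw [mul_sub, mul_one, sub_mul, one_mul, h1, sub_self, sub_zero]
  have hQc : Continuous fun t => ‖Q t‖ := (continuous_const.sub (hAc.mul hBc)).norm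
  have hQ0 : ‖Q 0‖ = 0 := by simp [hQ, hA0, hB0]
  have hle : ∀ t, ‖Q t‖ ≤ ‖Q t‖ * ‖Q t‖ := fun t => by
    calc ‖Q t‖ = ‖Q t * Q t‖ := by rw [hQQ]
      _ ≤ _ := norm_mul_le _ _
  have hlt : ‖Q t‖ < 1 / 2 := by
    by_contra hcon
    push Not at hcon
    obtain ⟨s, hs⟩ := mem_range_of_exists_le_of_exists_ge hQc (c := 1 / 2)
      ⟨0, by rw [hQ0]; norm_num⟩ ⟨t, hcon⟩
    have := hle s
    simp only at hs
    rw [hs] at this
    norm_num at this
  have h0 : ‖Q t‖ = 0 := by
    have h1 := hle t
    have h2 := norm_nonneg (Q t)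
    nlinarith only [h1, h2, hlt]
  have h1 : Q t = 0 := norm_eq_zero.1 h0
  exact (sub_eq_zero.1 h1).symm

end Alg

section Vec

variable {E : Type*} [NormedAddCommGroup E] [NormedSpace ℝ E] [CompleteSpace E]

/-- **frame** for continuous linear maps -/
theorem exists_frame_clm {N : ℝ → E →L[ℝ] E} (hN : Continuous N) :
    ∃ A : ℝ → E →L[ℝ] E, A 0 = 1 ∧ ∀ t, HasDerivAt A (-(N t * A t)) t ∧ IsUnit (A t) := by
  obtain ⟨A, B, h0, -, hA, -, hBA, hAB⟩ := exists_frame hN
  exact ⟨A, h0, fun t => ⟨hA t, ⟨⟨A t, B t, hAB t, hBA t⟩, rfl⟩⟩⟩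

/-- a frame normalized at any time, as continuous linear equivalences -/
theorem exists_frame_equiv {N : ℝ → E →L[ℝ] E} (hN : Continuous N) (t₀ : ℝ) :
    ∃ A : ℝ → E ≃L[ℝ] E, (A t₀ : E →L[ℝ] E) = ContinuousLinearMap.id ℝ E ∧
      (∀ t, HasDerivAt (fun t => (A t : E →L[ℝ] E)) (-((N t).comp (A t : E →L[ℝ] E))) t) ∧
      ∀ t, HasDerivAt (fun t => ((A t).symm : E →L[ℝ] E))
        (((A t).symm : E →L[ℝ] E).comp (N t)) t := by
  have hN' : Continuous fun t => N (t + t₀) := hN.comp (continuous_id.add continuous_const)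
  obtain ⟨A, B, hA0, hB0, hA, hB, hBA, hAB⟩ := exists_frame hN'
  refine ⟨fun t => ContinuousLinearEquiv.equivOfInverse (A (t - t₀)) (B (t - t₀))
    (fun x => ?_) (fun x => ?_), ?_, fun t => ?_, fun t => ?_⟩
  · have := congrArg (fun T : E →L[ℝ] E => T x) (hBA (t - t₀))
    simpa using this
  · have := congrArg (fun T : E →L[ℝ] E => T x) (hAB (t - t₀))
    simpa using this
  · ext x
    have := congrArg (fun T : E →L[ℝ] E => T x) hA0
    simp [sub_self, hA0]
  · have h1 := (hA (t - t₀)).comp_sub_const t t₀
    simp only [sub_add_cancel] at h1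
    exact h1
  · have h1 := (hB (t - t₀)).comp_sub_const t t₀
    simp only [sub_add_cancel] at h1
    exact h1

/-- global solution of a linear differential equation with continuous coefficients -/
theorem exists_linear_ode {L : ℝ → E →L[ℝ] E} (hL : Continuous L) (t₀ : ℝ) (y₀ : E) :
    ∃ y : ℝ → E, y t₀ = y₀ ∧ ∀ t, HasDerivAt y (L t (y t)) t := by
  obtain ⟨A, h0, hA, -⟩ := exists_frame_equiv (N := fun t => -L t) hL.neg t₀
  refine ⟨fun t => A t y₀, ?_, fun t => ?_⟩
  · exact congrArg (fun T : E →L[ℝ] E => T y₀) h0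
  · have h1 := (hA t).clm_apply (hasDerivAt_const t y₀)
    simpa using h1

/-- uniqueness -/
theorem linear_ode_unique {L : ℝ → E →L[ℝ] E} (hL : Continuous L) {y z : ℝ → E}
    (hy : ∀ t, HasDerivAt y (L t (y t)) t) (hz : ∀ t, HasDerivAt z (L t (z t)) t) {t₀ : ℝ}
    (h : y t₀ = z t₀) : y = z := by
  obtain ⟨A, -, -, hB⟩ := exists_frame_equiv (N := fun t => -L t) hL.neg t₀
  have key : ∀ w : ℝ → E, (∀ t, HasDerivAt w (L t (w t)) t) → ∀ t,
      (A t).symm (w t) = (A t₀).symm (w t₀) := by
    intro w hw t
    have hd : ∀ s, HasDerivAt (fun s => (A s).symm (w s)) 0 s := fun s => by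
      have h1 := (hB s).clm_apply (hw s)
      refine h1.congr_deriv ?_
      simp
    exact is_const_of_deriv_eq_zero (f := fun s => (A s).symm (w s))
      (fun s => (hd s).differentiableAt) (fun s => (hd s).deriv) t t₀
  funext t
  apply (A t).symm.injective
  rw [key y hy t, key z hz t, h]

end Vec

end Vale.Agent.P253.H51
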