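import Vale.Agent.P253.H51.Diag2

/-!
P253: Cartan's uniqueness theorem and common eigenbases for holomorphic maps with equicontinuous
iterates at a fixed point (no metric is preserved).
-/

open scoped Manifold ContDiff Topology Bundle
open Set Metric Complex Filter Bundle IsManifold Manifold Module Vale.Agent.P253.Mfd

set_option maxSynthPendingDepth 3
set_option linter.unusedSectionVars false

noncomputable section

namespace Vale.Agent.P253.H51

section flat

variable {E : Type*} [NormedAddCommGroup E] [NormedSpace ℂ E] [FiniteDimensional ℂ E]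

/-- **Cartan's uniqueness theorem**, near a fixed point, for local iterates `F k` -/
theorem flat_cartan_seq {F : ℕ → E → E} {V : Set E} (hV : IsOpen V)
    (hFd : ∀ k, DifferentiableOn ℂ (F k) V) {C : ℝ} (hC : ∀ k, ∀ z ∈ V, ‖F k z‖ ≤ C) {z₁ : E}
    (hz : z₁ ∈ V) (h0 : ∀ z ∈ V, F 0 z = z) (hfix : F 1 z₁ = z₁)
    (hder : ∀ k, HasFDerivAt (F k) (ContinuousLinearMap.id ℂ E) z₁)
    (hstep : ∀ᶠ z in 𝓝 z₁, ∀ k, F k (F 1 z) = F (k + 1) z) :
    ∀ᶠ z in 𝓝 z₁, F 1 z = z := by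
  have hC0 : 0 ≤ C := (norm_nonneg _).trans (hC 0 z₁ hz)
  obtain ⟨R, hR, hRV⟩ := Metric.isOpen_iff.1 hV z₁ hz
  -- averages of the iterates
  set φ : ℕ → E → E := fun N z => (N : ℂ)⁻¹ • ∑ k ∈ Finset.range N, F k z with hφ
  have hφd : ∀ N, DifferentiableOn ℂ (φ N) V := by
    intro N
    exact (DifferentiableOn.fun_sum fun k _ => hFd k).const_smul _
  have hφC : ∀ N, ∀ z ∈ V, ‖φ N z‖ ≤ C := by
    intro N z hzV
    rcases Nat.eq_zero_or_pos N with hN0 | hN0
    · subst hN0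
      simpa [hφ] using hC0
    have hN : (0:ℝ) < N := by exact_mod_cast hN0
    simp only [hφ, norm_smul, norm_inv, Complex.norm_natCast]
    have h1 : ‖∑ k ∈ Finset.range N, F k z‖ ≤ N * C := by
      refine (norm_sum_le _ _).trans ?_
      refine (Finset.sum_le_card_nsmul _ _ C fun k _ => hC k z hzV).trans_eq ?_
      simp [nsmul_eq_mul]
    calc _ ≤ (N : ℝ)⁻¹ * (N * C) := mul_le_mul_of_nonneg_left h1 (by positivity)
      _ = C := by field_simp
  have hφ1 : ∀ N, 0 < N → HasFDerivAt (φ N) (ContinuousLinearMap.id ℂ E) z₁ := by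
    intro N hN
    have h2 := (HasFDerivAt.fun_sum fun k (_ : k ∈ Finset.range N) => hder k).const_smul
      ((N : ℂ)⁻¹)
    refine h2.congr_fderiv ?_
    rw [Finset.sum_const, Finset.card_range, ← Nat.cast_smul_eq_nsmul ℂ, smul_smul,
      inv_mul_cancel₀ (by exact_mod_cast hN.ne'), one_smul]
  -- constants
  set K : ℝ := 32 * C / R ^ 2 with hK
  have hK0 : 0 ≤ K := by positivity
  set ρ : ℝ := min (R / 4) (1 / (2 * (K + 1))) with hρ
  have hρ0 : 0 < ρ := lt_min (by positivity) (by positivity)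
  have hρK : K * ρ ≤ 1 / 2 := by
    have h1 : ρ ≤ 1 / (2 * (K + 1)) := min_le_right _ _
    calc K * ρ ≤ (K + 1) * (1 / (2 * (K + 1))) :=
          mul_le_mul (by linarith) h1 hρ0.le (by positivity)
      _ = 1 / 2 := by field_simp
  have hev1 : ∀ᶠ z in 𝓝 z₁, z ∈ ball z₁ ρ := ball_mem_nhds _ hρ0
  have hev2 : ∀ᶠ z in 𝓝 z₁, F 1 z ∈ ball z₁ ρ := by
    have h1 : ball z₁ ρ ∈ 𝓝 (F 1 z₁) := by
      rw [hfix]
      exact ball_mem_nhds _ hρ0
    exact (hder 1).continuousAt h1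
  filter_upwards [hev1, hev2, hstep] with z hz1 hz2 hz3
  have hzV : z ∈ V := hRV (ball_subset_ball ((min_le_left _ _).trans (by linarith)) hz1)
  have hkey : ∀ N : ℕ, 0 < N → ‖F 1 z - z‖ ≤ 4 * C / N := by
    intro N hN
    have hN' : (0:ℝ) < N := by exact_mod_cast hN
    have h1 := H805.close_to_id hR hC0 ((hφd N).mono hRV) (fun y hy => hφC N y (hRV hy))
      (hφ1 N hN) hρ0 (min_le_left _ _) hρK hz1 hz2
    have h2 : φ N (F 1 z) - φ N z = (N : ℂ)⁻¹ • (F N z - z) := by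
      simp only [hφ]
      rw [← smul_sub, ← Finset.sum_sub_distrib]
      congr 1
      have h3 := Finset.sum_range_sub (fun k => F k z) N
      rw [h0 z hzV] at h3
      rw [← h3]
      exact Finset.sum_congr rfl fun k _ => by rw [hz3 k]
    rw [h2, norm_smul, norm_inv, Complex.norm_natCast] at h1
    have h3 : ‖F N z - z‖ ≤ 2 * C := by
      have h4 := norm_sub_le (F N z) z
      have h5 := hC N z hzV
      have h6 := hC 0 z hzV
      rw [h0 z hzV] at h6
      linarith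
    calc _ ≤ 2 * ((N : ℝ)⁻¹ * ‖F N z - z‖) := h1
      _ ≤ 2 * ((N : ℝ)⁻¹ * (2 * C)) := by gcongr
      _ = 4 * C / N := by field_simp; ring
  have hlim : Tendsto (fun N : ℕ => 4 * C / (N : ℝ)) atTop (𝓝 0) :=
    tendsto_const_div_atTop_nhds_zero_nat _
  have h00 : ‖F 1 z - z‖ ≤ 0 :=
    ge_of_tendsto hlim ((eventually_gt_atTop 0).mono hkey)
  exact sub_eq_zero.1 (norm_le_zero_iff.1 h00)

end flat

variable {E : Type*} [NormedAddCommGroup E] [NormedSpace ℂ E] [FiniteDimensional ℂ E]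
  {M : Type*} [MetricSpace M] [ChartedSpace E M] [IsManifold 𝓘(ℂ, E) 1 M]

theorem mdiff_iterate {g : M → M} (hg : MDifferentiable 𝓘(ℂ, E) 𝓘(ℂ, E) g) (n : ℕ) :
    MDifferentiable 𝓘(ℂ, E) 𝓘(ℂ, E) (g^[n]) := by
  induction n with
  | zero => exact mdifferentiable_id
  | succ n ih =>
    rw [Function.iterate_succ']
    exact hg.comp ih

/-- the differential of the identity -/
theorem dend_id (p : M) : dend (E := E) (id : M → M) p = ContinuousLinearMap.id ℂ E := by
  unfold dend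
  exact mfderiv_id

/-- the differential of a composition at a common fixed point -/
theorem dend_comp {p : M} {f g : M → M} (hf : MDifferentiable 𝓘(ℂ, E) 𝓘(ℂ, E) f)
    (hg : MDifferentiable 𝓘(ℂ, E) 𝓘(ℂ, E) g) (hfp : f p = p) (hgp : g p = p) :
    dend (E := E) (f ∘ g) p = (dend (E := E) f p).comp (dend (E := E) g p) := by
  have h1 := hasFDerivAt_comp hf hg hfp hgp
  have h2 : HasFDerivAt (fun z => chartAt E p ((f ∘ g) ((chartAt E p).symm z)))
      (dend (E := E) (f ∘ g) p) (chartAt E p p) :=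
    H805.hasFDerivAt_chart (hf.comp hg) (by simp [hgp, hfp])
  exact h2.unique h1

/-- the differential of an iterate at a fixed point -/
theorem dend_iterate {p : M} {g : M → M} (hg : MDifferentiable 𝓘(ℂ, E) 𝓘(ℂ, E) g)
    (hp : g p = p) (k : ℕ) : dend (E := E) (g^[k]) p = dend (E := E) g p ^ k := by
  induction k with
  | zero => exact dend_id p
  | succ k ih =>
    rw [Function.iterate_succ, dend_comp (mdiff_iterate hg k) hg (Function.iterate_fixed hp k) hp,
      ih, pow_succ]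
    rfl

/-- local iterates in the preferred chart, when the iterates are equicontinuous at the fixed
point -/
theorem local_iterates [ProperSpace M] {p : M} {g : M → M}
    (hg : MDifferentiable 𝓘(ℂ, E) 𝓘(ℂ, E) g) (hp : g p = p)
    (heq : ∀ ε > 0, ∃ U ∈ 𝓝 p, ∀ k : ℕ, ∀ x ∈ U, dist (g^[k] x) p < ε) :
    ∃ (V : Set E) (C : ℝ), IsOpen V ∧ chartAt E p p ∈ V ∧ V ⊆ (chartAt E p).target ∧
      (∀ k : ℕ, DifferentiableOn ℂ
        (fun z => chartAt E p (g^[k] ((chartAt E p).symm z))) V) ∧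
      (∀ k : ℕ, ∀ z ∈ V, g^[k] ((chartAt E p).symm z) ∈ (chartAt E p).source) ∧
      ∀ k : ℕ, ∀ z ∈ V, ‖chartAt E p (g^[k] ((chartAt E p).symm z))‖ ≤ C := by
  set c := chartAt E p with hc
  have hcm : c ∈ maximalAtlas 𝓘(ℂ, E) 1 M := chart_mem_maximalAtlas p
  have hps : p ∈ c.source := mem_chart_source E p
  obtain ⟨r, hr, hrs⟩ := Metric.nhds_basis_closedBall.mem_iff.1 (c.open_source.mem_nhds hps)
  obtain ⟨U, hU, hUk⟩ := heq r hr
  set V : Set E := c.target ∩ c.symm ⁻¹' interior U with hVd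
  have hV : IsOpen V := c.continuousOn_symm.isOpen_inter_preimage c.open_target isOpen_interior
  have hin : ∀ k : ℕ, ∀ z ∈ V, g^[k] (c.symm z) ∈ closedBall p r := fun k z hz =>
    mem_closedBall.2 (hUk k _ (interior_subset hz.2)).le
  obtain ⟨C, hC⟩ : ∃ C : ℝ, ∀ y ∈ closedBall p r, ‖c y‖ ≤ C := by
    have h1 : IsCompact (c '' closedBall p r) :=
      (isCompact_closedBall p r).image_of_continuousOn (c.continuousOn.mono hrs)
    obtain ⟨C, hC⟩ := h1.isBounded.exists_norm_le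
    exact ⟨C, fun y hy => hC _ (mem_image_of_mem _ hy)⟩
  refine ⟨V, C, hV, ?_, inter_subset_left, fun k z hz => ?_, fun k z hz => hrs (hin k z hz),
    fun k z hz => hC _ (hin k z hz)⟩
  · refine ⟨c.map_source hps, ?_⟩
    simp only [mem_preimage, c.left_inv hps]
    exact mem_interior_iff_mem_nhds.2 hU
  · have h2 : g^[k] (c.symm z) ∈ c.source := hrs (hin k z hz)
    have k1 : MDifferentiableAt 𝓘(ℂ, E) 𝓘(ℂ, E) c.symm z :=
      ((contMDiffOn_symm_of_mem_maximalAtlas hcm).contMDiffAt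
        (c.open_target.mem_nhds hz.1)).mdifferentiableAt (by simp)
    have k2 : MDifferentiableAt 𝓘(ℂ, E) 𝓘(ℂ, E) (g^[k]) (c.symm z) := mdiff_iterate hg k _
    have k3 : MDifferentiableAt 𝓘(ℂ, E) 𝓘(ℂ, E) c (g^[k] (c.symm z)) :=
      ((contMDiffOn_of_mem_maximalAtlas hcm).contMDiffAt
        (c.open_source.mem_nhds h2)).mdifferentiableAt (by simp)
    have k4 := k3.comp z (k2.comp z k1)
    exact k4.differentiableAt.differentiableWithinAt

/-- **Cartan's uniqueness theorem**: a holomorphic self-map whose iterates are equicontinuous at a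
fixed point `p`, with the differential `id` at `p`, is the identity -/
theorem eq_id_of_deriv_bdd [ProperSpace M] [ConnectedSpace M] {p : M} {g : M → M}
    (hg : MDifferentiable 𝓘(ℂ, E) 𝓘(ℂ, E) g) (hp : g p = p)
    (heq : ∀ ε > 0, ∃ U ∈ 𝓝 p, ∀ k : ℕ, ∀ x ∈ U, dist (g^[k] x) p < ε)
    (h : ∀ v : E, (mfderiv 𝓘(ℂ, E) 𝓘(ℂ, E) g p : E → E) v = v) (x : M) :
    g x = x := by
  refine H577.eq_id_of_eventually hg (p := p) ?_ x
  obtain ⟨V, C, hV, hpV, hVt, hd, hs, hC⟩ := local_iterates hg hp heq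
  set c := chartAt E p with hc
  have hps : p ∈ c.source := mem_chart_source E p
  set F : ℕ → E → E := fun k z => c (g^[k] (c.symm z)) with hF
  have hT : dend (E := E) g p = ContinuousLinearMap.id ℂ E := by
    ext v
    exact h v
  have hder : ∀ k, HasFDerivAt (F k) (ContinuousLinearMap.id ℂ E) (c p) := by
    intro k
    have h1 : HasFDerivAt (F k) (dend (E := E) (g^[k]) p) (c p) :=
      H805.hasFDerivAt_chart (mdiff_iterate hg k) (Function.iterate_fixed hp k)
    have h2 : (ContinuousLinearMap.id ℂ E) ^ k = ContinuousLinearMap.id ℂ E := one_pow k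
    rwa [dend_iterate hg hp, hT, h2] at h1
  have h0 : ∀ z ∈ V, F 0 z = z := fun z hz => c.right_inv (hVt hz)
  have hfix : F 1 (c p) = c p := by simp only [hF, Function.iterate_one, c.left_inv hps, hp]
  have hstep : ∀ᶠ z in 𝓝 (c p), ∀ k, F k (F 1 z) = F (k + 1) z := by
    filter_upwards [hV.mem_nhds hpV] with z hz k
    simp only [hF]
    rw [c.left_inv (hs 1 z hz), Function.iterate_one, ← Function.iterate_succ_apply]
  have hev := flat_cartan_seq hV hd hC hpV h0 hfix hder hstep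
  have hev2 : ∀ᶠ y in 𝓝 p, F 1 (c y) = c y := (c.continuousAt hps).eventually hev
  have hev3 : ∀ᶠ y in 𝓝 p, c y ∈ V := (c.continuousAt hps).eventually (hV.mem_nhds hpV)
  filter_upwards [hev2, hev3, c.open_source.mem_nhds hps] with y hy hyV hys
  have hgs := hs 1 _ hyV
  simp only [hF, Function.iterate_one, c.left_inv hys] at hy hgs
  exact c.injOn hgs hys hy

/-- the powers of the differential are bounded -/
theorem pow_bounded_bdd [ProperSpace M] {p : M} {g : M → M}
    (hg : MDifferentiable 𝓘(ℂ, E) 𝓘(ℂ, E) g) (hp : g p = p)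
    (heq : ∀ ε > 0, ∃ U ∈ 𝓝 p, ∀ k : ℕ, ∀ x ∈ U, dist (g^[k] x) p < ε) :
    ∃ B : ℝ, ∀ (k : ℕ) (v : E), ‖(dend (E := E) g p ^ k) v‖ ≤ B * ‖v‖ := by
  obtain ⟨V, C, hV, hpV, hVt, hd, hs, hC⟩ := local_iterates hg hp heq
  set c := chartAt E p with hc
  obtain ⟨R, hR, hRV⟩ := Metric.isOpen_iff.1 hV (c p) hpV
  refine ⟨2 * C / R, fun k v => ?_⟩
  have h1 : HasFDerivAt (fun z => c (g^[k] (c.symm z))) (dend (E := E) (g^[k]) p) (c p) :=
    H805.hasFDerivAt_chart (mdiff_iterate hg k) (Function.iterate_fixed hp k)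
  have h2 := H661.cauchy_est hR ((hd k).mono hRV) (fun y hy => hC k _ (hRV hy))
  rw [h1.fderiv, dend_iterate hg hp] at h2
  exact (ContinuousLinearMap.le_opNorm _ _).trans
    (mul_le_mul_of_nonneg_right h2 (norm_nonneg v))

/-- **Commuting automorphisms with equicontinuous iterates at a common fixed point have a common
basis of eigenvectors** of their differentials, with eigenvalues of modulus one. -/
theorem exists_common_eigenbasis_bdd [ProperSpace M] {p : M} {S : Set (M → M)}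
    (hS : ∀ f ∈ S, MDifferentiable 𝓘(ℂ, E) 𝓘(ℂ, E) f ∧ f p = p ∧
      ∀ ε > 0, ∃ U ∈ 𝓝 p, ∀ k : ℕ, ∀ x ∈ U, dist (f^[k] x) p < ε)
    (hcomm : ∀ f ∈ S, ∀ g ∈ S, ∀ x, f (g x) = g (f x))
    (hinv : ∀ f ∈ S, ∃ g ∈ S, ∀ x, g (f x) = x) :
    ∃ (b : Module.Basis (Fin (Module.finrank ℂ E)) ℂ E)
      (lam : (M → M) → Fin (Module.finrank ℂ E) → ℂ), (∀ f ∈ S, ∀ j, ‖lam f j‖ = 1) ∧
        ∀ f ∈ S, ∀ j, (mfderiv 𝓘(ℂ, E) 𝓘(ℂ, E) f p : E → E) (b j) = lam f j • b j := by
  classical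
  have hB : ∀ f ∈ S, ∃ B : ℝ, ∀ (k : ℕ) (v : E), ‖(dend (E := E) f p ^ k) v‖ ≤ B * ‖v‖ :=
    fun f hf => pow_bounded_bdd (hS f hf).1 (hS f hf).2.1 (hS f hf).2.2
  have hlow : ∀ f ∈ S, ∀ v ≠ 0,
      ¬ Tendsto (fun k : ℕ => (dend (E := E) f p ^ k) v) atTop (𝓝 0) := by
    intro f hf v hv hlim
    obtain ⟨g, hg, hgf⟩ := hinv f hf
    obtain ⟨B, hBg⟩ := hB g hg
    have h1 : (dend (E := E) g p).comp (dend (E := E) f p) = ContinuousLinearMap.id ℂ E := by
      rw [← dend_comp (hS g hg).1 (hS f hf).1 (hS g hg).2.1 (hS f hf).2.1]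
      have h2 : g ∘ f = id := funext hgf
      rw [h2, dend_id]
    have h2 : ∀ (k : ℕ) (w : E), (dend (E := E) g p ^ k) ((dend (E := E) f p ^ k) w) = w := by
      intro k
      induction k with
      | zero => intro w; simp
      | succ k ih =>
        intro w
        rw [pow_succ, pow_succ', mul_apply_eq_comp, mul_apply_eq_comp]
        have h3 := congrArg (fun L : E →L[ℂ] E => L ((dend (E := E) f p ^ k) w)) h1
        simp only [ContinuousLinearMap.comp_apply, ContinuousLinearMap.id_apply] at h3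
        rw [h3, ih]
    have h3 : Tendsto (fun k : ℕ => B * ‖(dend (E := E) f p ^ k) v‖) atTop (𝓝 (B * ‖(0:E)‖)) :=
      (hlim.norm).const_mul B
    rw [norm_zero, mul_zero] at h3
    have h4 : ‖v‖ ≤ 0 := ge_of_tendsto h3 (Eventually.of_forall fun k => by
      have h5 := hBg k ((dend (E := E) f p ^ k) v)
      rwa [h2] at h5)
    exact hv (norm_le_zero_iff.1 h4)
  obtain ⟨b, lam, hlam⟩ := common_eigenbasis (ι := S) (T := fun f => dend (E := E) f.1 p)
    (fun f g => dend_comm (hS f.1 f.2).1 (hS g.1 g.2).1 (hS f.1 f.2).2.1 (hS g.1 g.2).2.1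
      (hcomm f.1 f.2 g.1 g.2))
    (fun f => hB f.1 f.2) (fun f v hv => hlow f.1 f.2 v hv)
  refine ⟨b, fun f j => if h : f ∈ S then lam ⟨f, h⟩ j else 0, fun f hf j => ?_, fun f hf j => ?_⟩
  · simp only [dif_pos hf]
    obtain ⟨B, hB'⟩ := hB f hf
    exact norm_eigen hB' (hlow f hf) (b.ne_zero j) (hlam ⟨f, hf⟩ j)
  · simp only [dif_pos hf]
    exact hlam ⟨f, hf⟩ j

end Vale.Agent.P253.H51
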