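import Vale.Agent.P253.H51.Diag
import Mathlib.LinearAlgebra.Eigenspace.Pi

/-!
P253: commuting holomorphic isometries with a common fixed point: common basis of eigenvectors of the
differentials.
-/

open scoped Manifold ContDiff Topology Bundle
open Set Metric Complex Filter Bundle IsManifold Manifold Module Vale.Agent.P253.Mfd

set_option maxSynthPendingDepth 3
set_option linter.unusedSectionVars false

noncomputable section

namespace Vale.Agent.P253.H51

section flat

variable {E : Type*} [NormedAddCommGroup E] [NormedSpace ℂ E]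

/-- a generalized eigenvector of a power bounded endomorphism without decaying orbits is an
eigenvector -/
theorem eigen_of_genEigen {T : E →L[ℂ] E} {B : ℝ} (hB : ∀ (k : ℕ) v, ‖(T ^ k) v‖ ≤ B * ‖v‖)
    (hlow : ∀ v ≠ 0, ¬ Tendsto (fun k : ℕ => (T ^ k) v) atTop (𝓝 0)) {μ : ℂ} {x : E}
    (hx : x ∈ Module.End.maxGenEigenspace (T : E →ₗ[ℂ] E) μ) : T x = μ • x := by
  set f : Module.End ℂ E := (T : E →ₗ[ℂ] E) with hf
  have hfa : ∀ v, f v = T v := fun v => rfl
  have hgen : ∀ (k : ℕ) (x : E), ((f - μ • (1 : Module.End ℂ E)) ^ k) x = 0 →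
      (f - μ • (1 : Module.End ℂ E)) x = 0 := by
    intro k
    induction k with
    | zero =>
      intro x hx
      rw [pow_zero, Module.End.one_apply] at hx
      rw [hx, map_zero]
    | succ k ih =>
      intro x hx
      rw [pow_succ, Module.End.mul_apply] at hx
      have h1 := ih _ hx
      simp only [LinearMap.sub_apply, LinearMap.smul_apply, Module.End.one_apply, hfa] at h1 ⊢
      exact sub_eq_zero.2 (no_jordan hB hlow (sub_eq_zero.1 h1))
  obtain ⟨k, hk⟩ := (Module.End.mem_maxGenEigenspace f μ x).1 hx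
  have h1 := hgen k x hk
  simp only [LinearMap.sub_apply, LinearMap.smul_apply, Module.End.one_apply, hfa] at h1
  exact sub_eq_zero.1 h1

variable [FiniteDimensional ℂ E]

/-- commuting power bounded endomorphisms without decaying orbits have a common basis of
eigenvectors -/
theorem common_eigenbasis {ι : Type*} {T : ι → E →L[ℂ] E}
    (hcomm : ∀ i j, (T i).comp (T j) = (T j).comp (T i))
    (hB : ∀ i, ∃ B : ℝ, ∀ (k : ℕ) v, ‖(T i ^ k) v‖ ≤ B * ‖v‖)
    (hlow : ∀ i, ∀ v ≠ 0, ¬ Tendsto (fun k : ℕ => (T i ^ k) v) atTop (𝓝 0)) :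
    ∃ (b : Module.Basis (Fin (Module.finrank ℂ E)) ℂ E)
      (lam : ι → Fin (Module.finrank ℂ E) → ℂ), ∀ i j, T i (b j) = lam i j • b j := by
  set f : ι → Module.End ℂ E := fun i => (T i : E →ₗ[ℂ] E) with hf
  have hspan : ⊤ ≤ Submodule.span ℂ {v : E | ∀ i, ∃ μ : ℂ, T i v = μ • v} := by
    rw [← Module.End.iSup_iInf_maxGenEigenspace_eq_top_of_iSup_maxGenEigenspace_eq_top_of_commute f
      (fun i j _ => ?_) (fun i => Module.End.iSup_maxGenEigenspace_eq_top (f i))]
    · refine iSup_le fun χ x hx => Submodule.subset_span fun i => ?_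
      obtain ⟨B, hB'⟩ := hB i
      exact ⟨χ i, eigen_of_genEigen hB' (hlow i) ((Submodule.mem_iInf _).1 hx i)⟩
    · refine LinearMap.ext fun v => ?_
      exact congrArg (fun L : E →L[ℂ] E => L v) (hcomm i j)
  set b0 := Module.Basis.ofSpan hspan with hb0
  have := FiniteDimensional.fintypeBasisIndex b0
  set e := Fintype.equivFinOfCardEq (Module.finrank_eq_card_basis b0).symm with he
  set b := b0.reindex e with hb
  have hbS : ∀ i j, ∃ μ : ℂ, T i (b j) = μ • b j := by
    intro i j
    have h1 : b j ∈ range b0 := by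
      rw [hb, Module.Basis.reindex_apply]
      exact mem_range_self _
    exact Module.Basis.ofSpan_subset hspan h1 i
  choose lam hlam using hbS
  exact ⟨b, lam, hlam⟩

end flat

variable {E : Type*} [NormedAddCommGroup E] [NormedSpace ℂ E] [FiniteDimensional ℂ E]
  {M : Type*} [MetricSpace M] [ChartedSpace E M] [IsManifold 𝓘(ℂ, E) 1 M]

/-- the derivative of a composition in the preferred chart at a common fixed point -/
theorem hasFDerivAt_comp {p : M} {f g : M → M} (hf : MDifferentiable 𝓘(ℂ, E) 𝓘(ℂ, E) f)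
    (hg : MDifferentiable 𝓘(ℂ, E) 𝓘(ℂ, E) g) (hfp : f p = p) (hgp : g p = p) :
    HasFDerivAt (fun z => chartAt E p (f (g ((chartAt E p).symm z))))
      ((dend (E := E) f p).comp (dend (E := E) g p)) (chartAt E p p) := by
  set c := chartAt E p with hc
  have hps : p ∈ c.source := mem_chart_source E p
  have h1 : HasFDerivAt (fun z => c (f (c.symm z))) (dend (E := E) f p) (c p) :=
    H805.hasFDerivAt_chart hf hfp
  have h2 : HasFDerivAt (fun z => c (g (c.symm z))) (dend (E := E) g p) (c p) :=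
    H805.hasFDerivAt_chart hg hgp
  have hgz : c (g (c.symm (c p))) = c p := by rw [c.left_inv hps, hgp]
  have h3 : HasFDerivAt (fun z => c (f (c.symm z))) (dend (E := E) f p)
      ((fun z => c (g (c.symm z))) (c p)) := by
    simp only [hgz]
    exact h1
  have h4 := h3.comp (c p) h2
  refine h4.congr_of_eventuallyEq ?_
  have h5 : ContinuousAt (fun z => g (c.symm z)) (c p) :=
    ContinuousAt.comp (g := g) hg.continuous.continuousAt
      (c.continuousAt_symm (c.map_source hps))
  have h6 : ∀ᶠ z in 𝓝 (c p), g (c.symm z) ∈ c.source := by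
    refine h5.eventually (c.open_source.eventually_mem ?_)
    change g (c.symm (c p)) ∈ c.source
    rw [c.left_inv hps, hgp]
    exact hps
  filter_upwards [h6] with z hz
  simp only [Function.comp_apply, c.left_inv hz]

/-- commuting holomorphic maps with a common fixed point have commuting differentials -/
theorem dend_comm {p : M} {f g : M → M} (hf : MDifferentiable 𝓘(ℂ, E) 𝓘(ℂ, E) f)
    (hg : MDifferentiable 𝓘(ℂ, E) 𝓘(ℂ, E) g) (hfp : f p = p) (hgp : g p = p)
    (hfg : ∀ x, f (g x) = g (f x)) :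
    (dend (E := E) f p).comp (dend (E := E) g p) = (dend (E := E) g p).comp (dend (E := E) f p) := by
  have h1 := hasFDerivAt_comp hf hg hfp hgp
  have h2 := hasFDerivAt_comp hg hf hgp hfp
  have h3 : (fun z => chartAt E p (f (g ((chartAt E p).symm z)))) =
      fun z => chartAt E p (g (f ((chartAt E p).symm z))) := by
    funext z
    rw [hfg]
  rw [h3] at h1
  exact h1.unique h2

variable [IsManifold 𝓘(ℝ, E) ∞ M]
  [RiemannianBundle (fun x : M => TangentSpace 𝓘(ℝ, E) x)]
  [IsContMDiffRiemannianBundle 𝓘(ℝ, E) ∞ E (fun x : M => TangentSpace 𝓘(ℝ, E) x)]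
  [IsRiemannianManifold 𝓘(ℝ, E) M]

/-- the orbits of the differential of a holomorphic isometry at a fixed point do not decay -/
theorem no_decay (hK : IsKahler E M) {p : M} {f : M → M}
    (hf : MDifferentiable 𝓘(ℂ, E) 𝓘(ℂ, E) f) (hd : ∀ x y, dist (f x) (f y) = dist x y)
    (hp : f p = p) {v : E} (hv : v ≠ 0) :
    ¬ Tendsto (fun k : ℕ => (dend (E := E) f p ^ k) v) atTop (𝓝 0) := by
  intro hlim
  set T : E →L[ℂ] E := dend (E := E) f p with hT
  have hcm : chartAt E p ∈ maximalAtlas 𝓘(ℂ, E) 1 M := chart_mem_maximalAtlas p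
  set G := chartG (chartAt E p) (chartAt E p p) with hG
  have hGT : ∀ v, G v v ≤ G (T v) (T v) := fun v => chartG_le_of_isometry hK hf hd hp v
  have hGk : ∀ (k : ℕ) (v : E), G v v ≤ G ((T ^ k) v) ((T ^ k) v) := by
    intro k
    induction k with
    | zero => intro v; simp
    | succ k ih =>
      intro v
      rw [pow_succ, mul_apply_eq_comp]
      exact (hGT v).trans (ih (T v))
  have hpos : 0 < G v v := (localKahler_chartG hK hcm).pos _
    ((chartAt E p).map_source (mem_chart_source E p)) v hv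
  have h1 : Tendsto (fun k : ℕ => G ((T ^ k) v) ((T ^ k) v)) atTop (𝓝 (G 0 0)) := by
    have h2 : Continuous fun w : E => G w w := by fun_prop
    exact (h2.tendsto 0).comp hlim
  rw [map_zero] at h1
  exact absurd (ge_of_tendsto h1 (Eventually.of_forall fun k => hGk k v)) (not_le.2 hpos)

/-- **Commuting holomorphic isometries with a common fixed point have a common basis of
eigenvectors** of their differentials. -/
theorem exists_common_eigenbasis (hK : IsKahler E M) [ProperSpace M] {p : M} {S : Set (M → M)}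
    (hS : ∀ f ∈ S, MDifferentiable 𝓘(ℂ, E) 𝓘(ℂ, E) f ∧ Isometry f ∧ f p = p)
    (hcomm : ∀ f ∈ S, ∀ g ∈ S, ∀ x, f (g x) = g (f x)) :
    ∃ (b : Module.Basis (Fin (Module.finrank ℂ E)) ℂ E)
      (lam : (M → M) → Fin (Module.finrank ℂ E) → ℂ), ∀ f ∈ S, ∀ j,
        (mfderiv 𝓘(ℂ, E) 𝓘(ℂ, E) f p : E → E) (b j) = lam f j • b j := by
  classical
  obtain ⟨b, lam, hlam⟩ := common_eigenbasis (ι := S) (T := fun f => dend (E := E) f.1 p)
    (fun f g => dend_comm (hS f.1 f.2).1 (hS g.1 g.2).1 (hS f.1 f.2).2.2 (hS g.1 g.2).2.2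
      (hcomm f.1 f.2 g.1 g.2))
    (fun f => pow_bounded (hS f.1 f.2).1 (fun x y => ((hS f.1 f.2).2.1.dist_eq x y).le)
      (hS f.1 f.2).2.2)
    (fun f v hv => no_decay hK (hS f.1 f.2).1 (fun x y => (hS f.1 f.2).2.1.dist_eq x y)
      (hS f.1 f.2).2.2 hv)
  refine ⟨b, fun f j => if h : f ∈ S then lam ⟨f, h⟩ j else 0, fun f hf j => ?_⟩
  simp only [dif_pos hf]
  exact hlam ⟨f, hf⟩ j

end Vale.Agent.P253.H51
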