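import Vale.Agent.P253.H661.Lim

/-!
P253: Cartan's uniqueness theorem: a holomorphic isometry with a fixed point `p` and the differential
`id` at `p` is the identity.
-/

open scoped Manifold ContDiff Topology Bundle
open Set Metric Complex Filter Bundle IsManifold Manifold Vale.Agent.P253.Mfd

set_option maxSynthPendingDepth 3
set_option linter.unusedSectionVars false

noncomputable section

namespace Vale.Agent.P253.H805

section flat

variable {E : Type*} [NormedAddCommGroup E] [NormedSpace ℂ E] [FiniteDimensional ℂ E]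

/-- a bounded holomorphic map with differential `id` at a point, with constants -/
theorem close_to_id {u : E → E} {z₁ : E} {R C : ℝ} (hR : 0 < R) (hC0 : 0 ≤ C)
    (hd : DifferentiableOn ℂ u (ball z₁ R)) (hC : ∀ y ∈ ball z₁ R, ‖u y‖ ≤ C)
    (h1 : HasFDerivAt u (ContinuousLinearMap.id ℂ E) z₁) {ρ : ℝ} (hρ0 : 0 < ρ) (hρ : ρ ≤ R / 4)
    (hρC : 32 * C / R ^ 2 * ρ ≤ 1 / 2) {z w : E} (hz : z ∈ ball z₁ ρ) (hw : w ∈ ball z₁ ρ) :
    ‖w - z‖ ≤ 2 * ‖u w - u z‖ := by
  have hCE : CompleteSpace E := FiniteDimensional.complete ℂ E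
  have hR2 : 0 < R / 2 := by positivity
  have hR4 : 0 < R / 4 := by positivity
  -- first derivatives
  have hb1 : ∀ y ∈ ball z₁ (R / 2), ‖fderiv ℂ u y‖ ≤ 4 * C / R := by
    intro y hy
    have hsub : ball y (R / 2) ⊆ ball z₁ R := by
      intro x hx
      rw [mem_ball] at *
      have := dist_triangle x y z₁
      linarith
    have h2 := H661.cauchy_est hR2 (hd.mono hsub) (fun x hx => hC x (hsub hx))
    calc _ ≤ 2 * C / (R / 2) := h2
      _ = 4 * C / R := by field_simp; ring
  have hcd : ContDiffOn ℂ 2 u (ball z₁ R) :=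
    (contDiffOn_infty.1 (contDiffOn_of_differentiableOn_complex isOpen_ball hd)) 2
  have hdd : DifferentiableOn ℂ (fderiv ℂ u) (ball z₁ R) :=
    (hcd.fderiv_of_isOpen isOpen_ball (m := 1) (by norm_num)).differentiableOn (by simp)
  -- second derivatives
  have hb2 : ∀ y ∈ ball z₁ (R / 4), ‖fderiv ℂ (fderiv ℂ u) y‖ ≤ 32 * C / R ^ 2 := by
    intro y hy
    have hsub : ball y (R / 4) ⊆ ball z₁ (R / 2) := by
      intro x hx
      rw [mem_ball] at *
      have := dist_triangle x y z₁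
      linarith
    have h2 := H661.cauchy_est hR4
      (hdd.mono (hsub.trans (ball_subset_ball (by linarith)))) (fun x hx => hb1 x (hsub hx))
    calc _ ≤ 2 * (4 * C / R) / (R / 4) := h2
      _ = 32 * C / R ^ 2 := by field_simp; ring
  have hK : 0 ≤ 32 * C / R ^ 2 := by positivity
  have hb3 : ∀ y ∈ ball z₁ ρ, ‖fderiv ℂ u y - ContinuousLinearMap.id ℂ E‖ ≤ 1 / 2 := by
    intro y hy
    have hyR : y ∈ ball z₁ (R / 4) := ball_subset_ball hρ hy
    have h2 := (convex_ball z₁ (R / 4)).norm_image_sub_le_of_norm_fderiv_le (𝕜 := ℂ)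
      (f := fderiv ℂ u) (C := 32 * C / R ^ 2)
      (fun x hx => hdd.differentiableAt (isOpen_ball.mem_nhds (ball_subset_ball (by linarith) hx)))
      hb2 (mem_ball_self hR4) hyR
    rw [h1.fderiv] at h2
    refine h2.trans (le_trans ?_ hρC)
    refine mul_le_mul_of_nonneg_left ?_ hK
    rw [← dist_eq_norm]
    exact (mem_ball.1 hy).le
  have h2 := (convex_ball z₁ ρ).norm_image_sub_le_of_norm_fderiv_le' (𝕜 := ℂ) (f := u)
    (C := 1 / 2) (φ := ContinuousLinearMap.id ℂ E)
    (fun x hx => hd.differentiableAt (isOpen_ball.mem_nhds (ball_subset_ball (by linarith) hx)))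
    hb3 hz hw
  rw [ContinuousLinearMap.id_apply] at h2
  have h3 : ‖w - z‖ ≤ ‖u w - u z‖ + ‖u w - u z - (w - z)‖ := by
    have h4 := norm_sub_le (u w - u z) (u w - u z - (w - z))
    rwa [sub_sub_cancel] at h4
  linarith

/-- **Cartan's uniqueness theorem**, near a fixed point -/
theorem flat_cartan {f : E → E} {V : Set E} (hV : IsOpen V) (hfd : DifferentiableOn ℂ f V)
    (hfV : MapsTo f V V) {C : ℝ} (hC : ∀ z ∈ V, ‖z‖ ≤ C) {z₁ : E} (hz : z₁ ∈ V)
    (hfix : f z₁ = z₁) (hder : HasFDerivAt f (ContinuousLinearMap.id ℂ E) z₁) :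
    ∀ᶠ z in 𝓝 z₁, f z = z := by
  have hC0 : 0 ≤ C := (norm_nonneg _).trans (hC z₁ hz)
  obtain ⟨R, hR, hRV⟩ := Metric.isOpen_iff.1 hV z₁ hz
  -- averages of the iterates
  set φ : ℕ → E → E := fun N z => (N : ℂ)⁻¹ • ∑ k ∈ Finset.range N, f^[k] z with hφ
  have hit : ∀ k, MapsTo (f^[k]) V V := fun k => hfV.iterate k
  have hitd : ∀ k, DifferentiableOn ℂ (f^[k]) V := fun k => hfd.iterate hfV k
  have hφd : ∀ N, DifferentiableOn ℂ (φ N) V := by
    intro N
    exact (DifferentiableOn.fun_sum fun k _ => hitd k).const_smul _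
  have hφC : ∀ N, ∀ z ∈ V, ‖φ N z‖ ≤ C := by
    intro N z hzV
    rcases Nat.eq_zero_or_pos N with h0 | h0
    · subst h0
      simpa [hφ] using hC0
    have hN : (0:ℝ) < N := by exact_mod_cast h0
    simp only [hφ, norm_smul, norm_inv, Complex.norm_natCast]
    have h1 : ‖∑ k ∈ Finset.range N, f^[k] z‖ ≤ N * C := by
      refine (norm_sum_le _ _).trans ?_
      refine (Finset.sum_le_card_nsmul _ _ C fun k _ => hC _ (hit k hzV)).trans_eq ?_
      simp [nsmul_eq_mul]
    calc _ ≤ (N : ℝ)⁻¹ * (N * C) := mul_le_mul_of_nonneg_left h1 (by positivity)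
      _ = C := by field_simp
  have hφ1 : ∀ N, 0 < N → HasFDerivAt (φ N) (ContinuousLinearMap.id ℂ E) z₁ := by
    intro N hN
    have h1 : ∀ k ∈ Finset.range N, HasFDerivAt (f^[k]) (ContinuousLinearMap.id ℂ E) z₁ := by
      intro k _
      have h2 := hder.iterate hfix k
      have h3 : (ContinuousLinearMap.id ℂ E) ^ k = ContinuousLinearMap.id ℂ E := one_pow k
      rwa [h3] at h2
    have h2 := (HasFDerivAt.fun_sum h1).const_smul ((N : ℂ)⁻¹)
    refine h2.congr_fderiv ?_
    rw [Finset.sum_const, Finset.card_range, ← Nat.cast_smul_eq_nsmul ℂ, smul_smul,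
      inv_mul_cancel₀ (by exact_mod_cast hN.ne'), one_smul]
  -- constants
  set K : ℝ := 32 * C / R ^ 2 with hK
  have hK0 : 0 ≤ K := by positivity
  set ρ : ℝ := min (R / 4) (1 / (2 * (K + 1))) with hρ
  have hρ0 : 0 < ρ := lt_min (by positivity) (by positivity)
  have hρK : K * ρ ≤ 1 / 2 := by
    have h1 : ρ ≤ 1 / (2 * (K + 1)) := min_le_right _ _
    calc K * ρ ≤ (K + 1) * (1 / (2 * (K + 1))) :=
          mul_le_mul (by linarith) h1 hρ0.le (by positivity)
      _ = 1 / 2 := by field_simp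
  have hev1 : ∀ᶠ z in 𝓝 z₁, z ∈ ball z₁ ρ := ball_mem_nhds _ hρ0
  have hev2 : ∀ᶠ z in 𝓝 z₁, f z ∈ ball z₁ ρ := by
    have h1 : ball z₁ ρ ∈ 𝓝 (f z₁) := by
      rw [hfix]
      exact ball_mem_nhds _ hρ0
    exact hder.continuousAt h1
  filter_upwards [hev1, hev2] with z hz1 hz2
  have hzV : z ∈ V := hRV (ball_subset_ball ((min_le_left _ _).trans (by linarith)) hz1)
  have hkey : ∀ N : ℕ, 0 < N → ‖f z - z‖ ≤ 4 * C / N := by
    intro N hN
    have hN' : (0:ℝ) < N := by exact_mod_cast hN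
    have h1 := close_to_id hR hC0 ((hφd N).mono hRV) (fun y hy => hφC N y (hRV hy)) (hφ1 N hN)
      hρ0 (min_le_left _ _) hρK hz1 hz2
    have h2 : φ N (f z) - φ N z = (N : ℂ)⁻¹ • (f^[N] z - z) := by
      simp only [hφ]
      rw [← smul_sub, ← Finset.sum_sub_distrib]
      congr 1
      have h3 := Finset.sum_range_sub (fun k => f^[k] z) N
      simp only [Function.iterate_succ_apply, Function.iterate_zero, id_eq] at h3
      exact h3
    rw [h2, norm_smul, norm_inv, Complex.norm_natCast] at h1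
    have h3 : ‖f^[N] z - z‖ ≤ 2 * C := by
      have h4 := norm_sub_le (f^[N] z) z
      have h5 := hC _ (hit N hzV)
      have h6 := hC _ hzV
      linarith
    calc _ ≤ 2 * ((N : ℝ)⁻¹ * ‖f^[N] z - z‖) := h1
      _ ≤ 2 * ((N : ℝ)⁻¹ * (2 * C)) := by gcongr
      _ = 4 * C / N := by field_simp; ring
  have hlim : Tendsto (fun N : ℕ => 4 * C / (N : ℝ)) atTop (𝓝 0) :=
    tendsto_const_div_atTop_nhds_zero_nat _
  have h0 : ‖f z - z‖ ≤ 0 :=
    ge_of_tendsto hlim ((eventually_gt_atTop 0).mono hkey)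
  exact sub_eq_zero.1 (norm_le_zero_iff.1 h0)

end flat

variable {E : Type*} [NormedAddCommGroup E] [NormedSpace ℂ E] [FiniteDimensional ℂ E]
  {M : Type*} [MetricSpace M] [ChartedSpace E M] [IsManifold 𝓘(ℂ, E) 1 M]

/-- the differential at a fixed point in the preferred chart -/
theorem hasFDerivAt_chart {g : M → M} (hg : MDifferentiable 𝓘(ℂ, E) 𝓘(ℂ, E) g) {p : M}
    (hp : g p = p) :
    HasFDerivAt (fun z => chartAt E p (g ((chartAt E p).symm z)))
      (mfderiv 𝓘(ℂ, E) 𝓘(ℂ, E) g p : E →L[ℂ] E) (chartAt E p p) := by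
  have h1 := (hg p).hasMFDerivAt.2
  have h2 : writtenInExtChartAt 𝓘(ℂ, E) 𝓘(ℂ, E) p g =
      fun z => chartAt E p (g ((chartAt E p).symm z)) := by
    funext z
    simp [writtenInExtChartAt, hp]
  rw [h2] at h1
  simp only [extChartAt, mfld_simps] at h1
  exact hasFDerivWithinAt_univ.1 h1

/-- **Cartan's uniqueness theorem**: a holomorphic self-map which preserves the distances, fixes
`p` and has the differential `id` at `p` is the identity -/
theorem eq_id_of_deriv [ProperSpace M] [ConnectedSpace M] {p : M} {g : M → M}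
    (hg : MDifferentiable 𝓘(ℂ, E) 𝓘(ℂ, E) g) (hd : ∀ x y, dist (g x) (g y) = dist x y)
    (hp : g p = p) (h : ∀ v : E, (mfderiv 𝓘(ℂ, E) 𝓘(ℂ, E) g p : E → E) v = v) (x : M) :
    g x = x := by
  refine H577.eq_id_of_eventually hg (p := p) ?_ x
  set c := chartAt E p with hc
  have hcm : c ∈ maximalAtlas 𝓘(ℂ, E) 1 M := chart_mem_maximalAtlas p
  have hps : p ∈ c.source := mem_chart_source E p
  set f : E → E := fun z => c (g (c.symm z)) with hf
  obtain ⟨r, hr, hrs⟩ := Metric.nhds_basis_closedBall.mem_iff.1 (c.open_source.mem_nhds hps)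
  have hball : ∀ y ∈ ball p r, g y ∈ ball p r := by
    intro y hy
    have h1 := hd y p
    rw [hp] at h1
    rwa [mem_ball, h1]
  set V : Set E := c.target ∩ c.symm ⁻¹' ball p r with hVd
  have hV : IsOpen V := c.continuousOn_symm.isOpen_inter_preimage c.open_target isOpen_ball
  have hfV : MapsTo f V V := by
    intro z hz
    have h1 : g (c.symm z) ∈ ball p r := hball _ hz.2
    have h2 : g (c.symm z) ∈ c.source := hrs (ball_subset_closedBall h1)
    refine ⟨c.map_source h2, ?_⟩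
    simp only [hf, mem_preimage, c.left_inv h2]
    exact h1
  have hfd : DifferentiableOn ℂ f V := by
    intro z hz
    have h2 : g (c.symm z) ∈ c.source := hrs (ball_subset_closedBall (hball _ hz.2))
    have k1 : MDifferentiableAt 𝓘(ℂ, E) 𝓘(ℂ, E) c.symm z :=
      ((contMDiffOn_symm_of_mem_maximalAtlas hcm).contMDiffAt
        (c.open_target.mem_nhds hz.1)).mdifferentiableAt (by simp)
    have k2 : MDifferentiableAt 𝓘(ℂ, E) 𝓘(ℂ, E) g (c.symm z) := hg _
    have k3 : MDifferentiableAt 𝓘(ℂ, E) 𝓘(ℂ, E) c (g (c.symm z)) :=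
      ((contMDiffOn_of_mem_maximalAtlas hcm).contMDiffAt
        (c.open_source.mem_nhds h2)).mdifferentiableAt (by simp)
    have k4 := k3.comp z (k2.comp z k1)
    exact k4.differentiableAt.differentiableWithinAt
  obtain ⟨C, hC⟩ : ∃ C : ℝ, ∀ z ∈ V, ‖z‖ ≤ C := by
    have h1 : IsCompact (c '' closedBall p r) :=
      (isCompact_closedBall p r).image_of_continuousOn (c.continuousOn.mono hrs)
    obtain ⟨C, hC⟩ := h1.isBounded.exists_norm_le
    refine ⟨C, fun z hz => hC z ⟨c.symm z, ball_subset_closedBall hz.2, c.right_inv hz.1⟩⟩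
  have hzV : c p ∈ V := by
    refine ⟨c.map_source hps, ?_⟩
    simp only [mem_preimage, c.left_inv hps]
    exact mem_ball_self hr
  have hfix : f (c p) = c p := by simp only [hf, c.left_inv hps, hp]
  have hder : HasFDerivAt f (ContinuousLinearMap.id ℂ E) (c p) := by
    have h1 := hasFDerivAt_chart hg hp
    have h2 : (mfderiv 𝓘(ℂ, E) 𝓘(ℂ, E) g p : E →L[ℂ] E) = ContinuousLinearMap.id ℂ E := by
      ext v
      exact h v
    rw [h2] at h1
    exact h1
  have hev := flat_cartan hV hfd hfV hC hzV hfix hder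
  have hev2 : ∀ᶠ y in 𝓝 p, f (c y) = c y := (c.continuousAt hps).eventually hev
  filter_upwards [hev2, ball_mem_nhds p hr] with y hy hy'
  have hys : y ∈ c.source := hrs (ball_subset_closedBall hy')
  have hgs : g y ∈ c.source := hrs (ball_subset_closedBall (hball y hy'))
  simp only [hf, c.left_inv hys] at hy
  exact c.injOn hgs hys hy

end Vale.Agent.P253.H805
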