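import Vale.Agent.P253.H22.Fld

/-!
P253: distance covered in real time along an orbit of a holomorphic vector field, with the sharp
constant.
-/

open scoped Manifold ContDiff Topology Bundle
open Set Metric Complex Filter Bundle IsManifold Manifold Module MeasureTheory
  Vale.Agent.P253.Mfd Vale.Agent.P253.H577 Vale.Agent.P253.H595 Vale.Agent.P253.H22

set_option maxSynthPendingDepth 3
set_option linter.unusedSectionVars false

noncomputable section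

namespace Vale.Agent.P253.H51

variable {E : Type*} [NormedAddCommGroup E] [NormedSpace ℂ E] [FiniteDimensional ℂ E]
  {M : Type*} [MetricSpace M] [ChartedSpace E M]
  [IsManifold 𝓘(ℂ, E) 1 M] [IsManifold 𝓘(ℝ, E) ∞ M]
  [RiemannianBundle (fun x : M => TangentSpace 𝓘(ℝ, E) x)]
  [IsContMDiffRiemannianBundle 𝓘(ℝ, E) ∞ E (fun x : M => TangentSpace 𝓘(ℝ, E) x)]
  {Z : (x : M) → TangentSpace 𝓘(ℂ, E) x}

/-- the length of a real multiple -/
theorem tnorm_real_smul (x : M) (t : ℝ) (v : E) :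
    tnorm x ((t : ℂ) • v) = |t| * tnorm x v := by
  have h1 : (t : ℂ) • v = t • v := by
    rw [Complex.coe_smul]
  rw [h1]
  have := norm_smul t (show TangentSpace 𝓘(ℝ, E) x from v)
  rw [Real.norm_eq_abs] at this
  exact this

variable [IsRiemannianManifold 𝓘(ℝ, E) M]

open scoped ENNReal

/-- distance covered in real time along an orbit on which the field is bounded -/
theorem dist_orbit_real_mul (hZ : IsHolField Z) {x : M} {C : ℝ} (hC : 0 ≤ C) {t : ℝ} {b : ℝ}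
    (hb0 : 0 ≤ b)
    (hD : ∀ r ∈ Icc (0:ℝ) b, ((r : ℂ) * t, x) ∈ DF (IntAt Z))
    (hb : ∀ r ∈ Icc (0:ℝ) b, fnorm E Z (FF (IntAt Z) (r * t) x) ≤ C) :
    dist x (FF (IntAt Z) (b * t) x) ≤ |t| * C * b := by
  have hLF := locFlow_of_field hZ
  set P := IntAt Z with hP
  set L : ℝ := |t| * C with hL
  have hL0 : 0 ≤ L := by positivity
  set γ : ℝ → M := fun r => FF P (r * t) x with hγ
  have hγ0 : γ 0 = x := by simp only [hγ, ofReal_zero, zero_mul, FF_zero hLF]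
  have hγs : ∀ r ∈ Icc (0:ℝ) b, ContMDiffAt 𝓘(ℝ, ℝ) 𝓘(ℝ, E) ∞ γ r := by
    intro r hr
    have h1 : ∀ᶠ ζ in 𝓝 ((r:ℂ) * t), MDifferentiableAt 𝓘(ℂ, ℂ) 𝓘(ℂ, E) (fun w => FF P w x) ζ := by
      filter_upwards [(isOpen_slice (P := P) x).mem_nhds (hD r hr)] with ζ hζ
      exact hLF.mdiff (FF_int hLF hζ)
    have h2 := contMDiffAt_real_curve h1
    have h3 : ContMDiffAt 𝓘(ℝ, ℝ) 𝓘(ℝ, ℂ) ∞ (fun r : ℝ => (r : ℂ) * t) r := by
      have : ContDiff ℝ ∞ (fun r : ℝ => (r : ℂ) * t) := ofRealCLM.contDiff.mul contDiff_const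
      exact this.contMDiff.contMDiffAt
    exact ContMDiffAt.comp r (g := fun w => FF P w x) (f := fun r : ℝ => (r : ℂ) * t) h2 h3
  have hspeed : ∀ r ∈ Icc (0:ℝ) b,
      ‖(mfderiv 𝓘(ℝ, ℝ) 𝓘(ℝ, E) γ r 1 : TangentSpace 𝓘(ℝ, E) (γ r))‖ ≤ L := by
    intro r hr
    have h1 := (mfderiv_line (Z := Z) (f := fun w => FF P w x) (t := t) (r := r)
      (FF_int hLF (hD r hr))).mfderiv
    have h2 : (mfderiv 𝓘(ℝ, ℝ) 𝓘(ℝ, E) γ r 1 : TangentSpace 𝓘(ℝ, E) (γ r)) =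
        (show TangentSpace 𝓘(ℝ, E) (γ r) from ((t : ℂ) • (Z (γ r) : E))) := by
      have h3 := congrArg (fun T : ℝ →L[ℝ] E => T 1) h1
      refine Eq.trans h3 ?_
      change (1:ℝ) • ((t : ℂ) • (Z (γ r) : E)) = _
      rw [one_smul]
    rw [h2]
    refine (tnorm_real_smul (E := E) (γ r) t (Z (γ r))).le.trans ?_
    rw [hL]
    exact mul_le_mul_of_nonneg_left (hb r hr) (abs_nonneg t)
  have h1 : edist (γ 0) (γ b) ≤
      ∫⁻ r in Ioo 0 b, ‖(mfderiv 𝓘(ℝ, ℝ) 𝓘(ℝ, E) γ r 1 : TangentSpace 𝓘(ℝ, E) (γ r))‖ₑ := by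
    rw [IsRiemannianManifold.out (I := 𝓘(ℝ, E)) (γ 0) (γ b)]
    refine (Manifold.riemannianEDist_le_pathELength (γ := γ) (a := 0) (b := b)
      (fun r hr => ((hγs r hr).of_le (by simp)).contMDiffWithinAt) rfl rfl
        hb0).trans_eq ?_
    rw [Manifold.pathELength_eq_lintegral_mfderiv_Ioo]
  have h2 : ∫⁻ r in Ioo 0 b, ‖(mfderiv 𝓘(ℝ, ℝ) 𝓘(ℝ, E) γ r 1 : TangentSpace 𝓘(ℝ, E) (γ r))‖ₑ ≤
      ∫⁻ r in Ioo 0 b, ENNReal.ofReal L := by
    apply setLIntegral_mono measurable_const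
    intro r hr
    rw [← ofReal_norm]
    apply ENNReal.ofReal_le_ofReal
    exact hspeed r (Ioo_subset_Icc_self hr)
  rw [setLIntegral_const, Real.volume_Ioo, ← ENNReal.ofReal_mul hL0] at h2
  have h3 := h1.trans h2
  rw [edist_dist, ENNReal.ofReal_le_ofReal_iff (mul_nonneg hL0 (by linarith)), hγ0,
    sub_zero] at h3
  exact h3

/-- distance covered in real time `s ≥ 0` along an orbit on which the field is bounded by `C` -/
theorem dist_orbit_real (hZ : IsHolField Z) {x : M} {C : ℝ} (hC : 0 ≤ C) {s : ℝ} (hs : 0 ≤ s)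
    (hD : ∀ r ∈ Icc (0:ℝ) s, ((r : ℂ), x) ∈ DF (IntAt Z))
    (hb : ∀ r ∈ Icc (0:ℝ) s, fnorm E Z (FF (IntAt Z) (r : ℂ) x) ≤ C) :
    dist x (FF (IntAt Z) (s : ℂ) x) ≤ C * s := by
  have h := dist_orbit_real_mul hZ hC (t := 1) (b := s) hs (x := x)
    (fun r hr => by simpa using hD r hr) (fun r hr => by simpa using hb r hr)
  simpa using h

/-- the same backwards in time: `0 ≤ s`, times `- s` -/
theorem dist_orbit_real_neg (hZ : IsHolField Z) {x : M} {C : ℝ} (hC : 0 ≤ C) {s : ℝ}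
    (hs : 0 ≤ s)
    (hD : ∀ r ∈ Icc (0:ℝ) s, (-(r : ℂ), x) ∈ DF (IntAt Z))
    (hb : ∀ r ∈ Icc (0:ℝ) s, fnorm E Z (FF (IntAt Z) (-(r : ℂ)) x) ≤ C) :
    dist x (FF (IntAt Z) (-(s : ℂ)) x) ≤ C * s := by
  have h := dist_orbit_real_mul hZ hC (t := -1) (b := s) hs (x := x)
    (fun r hr => by simpa using hD r hr) (fun r hr => by simpa using hb r hr)
  simpa using h

end Vale.Agent.P253.H51
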