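import Vale.Agent.P253.H51.Cartan
import Vale.Agent.P253.H805.Kill

/-!
P253: the differential of a holomorphic isometry at a fixed point has a basis of eigenvectors, with
eigenvalues of modulus one.
-/

open scoped Manifold ContDiff Topology Bundle
open Set Metric Complex Filter Bundle IsManifold Manifold Module Vale.Agent.P253.Mfd

set_option maxSynthPendingDepth 3
set_option linter.unusedSectionVars false

noncomputable section

namespace Vale.Agent.P253.H51

section flat

variable {E : Type*} [NormedAddCommGroup E] [NormedSpace ℂ E]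

theorem pow_apply_eigen {T : E →L[ℂ] E} {v : E} {μ : ℂ} (h : T v = μ • v) (k : ℕ) :
    (T ^ k) v = μ ^ k • v := by
  induction k with
  | zero => simp
  | succ k ih =>
    rw [pow_succ, mul_apply_eq_comp, h, map_smul, ih, smul_smul, pow_succ']

theorem pow_apply_jordan {T : E →L[ℂ] E} {v w : E} {μ : ℂ} (h : T v = μ • (v + w))
    (hw : T w = μ • w) (k : ℕ) : (T ^ k) v = μ ^ k • (v + (k : ℂ) • w) := by
  induction k with
  | zero => simp
  | succ k ih =>
    rw [pow_succ, mul_apply_eq_comp, h, map_smul, map_add, ih, pow_apply_eigen hw]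
    push_cast
    rw [pow_succ']
    module

theorem norm_eigen {T : E →L[ℂ] E} {B : ℝ} (hB : ∀ (k : ℕ) v, ‖(T ^ k) v‖ ≤ B * ‖v‖)
    (hlow : ∀ v ≠ 0, ¬ Tendsto (fun k : ℕ => (T ^ k) v) atTop (𝓝 0)) {v : E} (hv : v ≠ 0) {μ : ℂ}
    (h : T v = μ • v) : ‖μ‖ = 1 := by
  have hv' : 0 < ‖v‖ := norm_pos_iff.2 hv
  rcases lt_trichotomy ‖μ‖ 1 with h1 | h1 | h1
  · exfalso
    apply hlow v hv
    have h2 : (fun k : ℕ => (T ^ k) v) = fun k : ℕ => μ ^ k • v := by
      funext k
      exact pow_apply_eigen h k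
    rw [h2]
    have h3 := (tendsto_pow_atTop_nhds_zero_of_norm_lt_one h1).smul_const v
    rwa [zero_smul] at h3
  · exact h1
  · exfalso
    obtain ⟨n, hn⟩ := pow_unbounded_of_one_lt B h1
    have h2 := hB n v
    rw [pow_apply_eigen h, norm_smul, norm_pow] at h2
    exact absurd (le_of_mul_le_mul_right h2 hv') (not_le.2 hn)

theorem no_jordan {T : E →L[ℂ] E} {B : ℝ} (hB : ∀ (k : ℕ) v, ‖(T ^ k) v‖ ≤ B * ‖v‖)
    (hlow : ∀ v ≠ 0, ¬ Tendsto (fun k : ℕ => (T ^ k) v) atTop (𝓝 0)) {v : E} {μ : ℂ}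
    (h : T (T v - μ • v) = μ • (T v - μ • v)) : T v = μ • v := by
  by_contra hne
  have hw0 : T v - μ • v ≠ 0 := sub_ne_zero.2 hne
  have hμ : ‖μ‖ = 1 := norm_eigen hB hlow hw0 h
  have hμ0 : μ ≠ 0 := by
    rintro rfl
    simp at hμ
  set w : E := μ⁻¹ • (T v - μ • v) with hw
  have hw1 : T w = μ • w := by rw [hw, map_smul, h, smul_comm]
  have hw2 : T v = μ • (v + w) := by
    rw [hw, smul_add, smul_smul, mul_inv_cancel₀ hμ0, one_smul, add_sub_cancel]
  have hwn : 0 < ‖w‖ := by
    rw [norm_pos_iff, hw]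
    exact smul_ne_zero (inv_ne_zero hμ0) hw0
  have h1 : ∀ k : ℕ, (k : ℝ) * ‖w‖ ≤ (B + 1) * ‖v‖ := by
    intro k
    have h2 := hB k v
    rw [pow_apply_jordan hw2 hw1, norm_smul, norm_pow, hμ, one_pow, one_mul] at h2
    have h3 : ‖(k : ℂ) • w‖ ≤ ‖v + (k : ℂ) • w‖ + ‖v‖ := by
      have h4 := norm_sub_le (v + (k : ℂ) • w) v
      rwa [add_sub_cancel_left] at h4
    rw [norm_smul, Complex.norm_natCast] at h3
    linarith
  obtain ⟨k, hk⟩ := exists_nat_gt ((B + 1) * ‖v‖ / ‖w‖)
  have h2 := h1 k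
  rw [div_lt_iff₀ hwn] at hk
  linarith

variable [FiniteDimensional ℂ E]

/-- a power bounded endomorphism without decaying orbits has a basis of eigenvectors -/
theorem eigenbasis_of_bounded {T : E →L[ℂ] E} {B : ℝ} (hB : ∀ (k : ℕ) v, ‖(T ^ k) v‖ ≤ B * ‖v‖)
    (hlow : ∀ v ≠ 0, ¬ Tendsto (fun k : ℕ => (T ^ k) v) atTop (𝓝 0)) :
    ∃ (b : Module.Basis (Fin (Module.finrank ℂ E)) ℂ E) (lam : Fin (Module.finrank ℂ E) → ℂ),
      (∀ j, ‖lam j‖ = 1) ∧ ∀ j, T (b j) = lam j • b j := by
  set f : Module.End ℂ E := (T : E →ₗ[ℂ] E) with hf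
  have hfa : ∀ v, f v = T v := fun v => rfl
  have hgen : ∀ (μ : ℂ) (k : ℕ) (x : E), ((f - μ • (1 : Module.End ℂ E)) ^ k) x = 0 →
      (f - μ • (1 : Module.End ℂ E)) x = 0 := by
    intro μ k
    induction k with
    | zero =>
      intro x hx
      rw [pow_zero, Module.End.one_apply] at hx
      rw [hx, map_zero]
    | succ k ih =>
      intro x hx
      rw [pow_succ, Module.End.mul_apply] at hx
      have h1 := ih _ hx
      simp only [LinearMap.sub_apply, LinearMap.smul_apply, Module.End.one_apply, hfa] at h1 ⊢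
      exact sub_eq_zero.2 (no_jordan hB hlow (sub_eq_zero.1 h1))
  have hspan : ⊤ ≤ Submodule.span ℂ {v : E | ∃ μ : ℂ, T v = μ • v} := by
    rw [← Module.End.iSup_maxGenEigenspace_eq_top f]
    refine iSup_le fun μ x hx => ?_
    obtain ⟨k, hk⟩ := (Module.End.mem_maxGenEigenspace f μ x).1 hx
    have h1 := hgen μ k x hk
    refine Submodule.subset_span ⟨μ, ?_⟩
    simp only [LinearMap.sub_apply, LinearMap.smul_apply, Module.End.one_apply, hfa] at h1
    exact sub_eq_zero.1 h1
  set b0 := Module.Basis.ofSpan hspan with hb0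
  have := FiniteDimensional.fintypeBasisIndex b0
  set e := Fintype.equivFinOfCardEq (Module.finrank_eq_card_basis b0).symm with he
  set b := b0.reindex e with hb
  have hbS : ∀ j, ∃ μ : ℂ, T (b j) = μ • b j := by
    intro j
    have h1 : b j ∈ range b0 := by
      rw [hb, Module.Basis.reindex_apply]
      exact mem_range_self _
    exact Module.Basis.ofSpan_subset hspan h1
  choose lam hlam using hbS
  exact ⟨b, lam, fun j => norm_eigen hB hlow (b.ne_zero j) (hlam j), hlam⟩

end flat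

variable {E : Type*} [NormedAddCommGroup E] [NormedSpace ℂ E] [FiniteDimensional ℂ E]
  {M : Type*} [MetricSpace M] [ChartedSpace E M] [IsManifold 𝓘(ℂ, E) 1 M]

/-- the differential of `g` at `p`, as an endomorphism of the model space -/
def dend (g : M → M) (p : M) : E →L[ℂ] E := mfderiv 𝓘(ℂ, E) 𝓘(ℂ, E) g p

/-- the powers of the differential of a holomorphic isometry at a fixed point are bounded -/
theorem pow_bounded [ProperSpace M] {p : M} {g : M → M}
    (hg : MDifferentiable 𝓘(ℂ, E) 𝓘(ℂ, E) g) (hd : ∀ x y, dist (g x) (g y) ≤ dist x y)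
    (hp : g p = p) : ∃ B : ℝ, ∀ (k : ℕ) (v : E),
      ‖(dend (E := E) g p ^ k) v‖ ≤ B * ‖v‖ := by
  set c := chartAt E p with hc
  have hcm : c ∈ maximalAtlas 𝓘(ℂ, E) 1 M := chart_mem_maximalAtlas p
  have hps : p ∈ c.source := mem_chart_source E p
  set f : E → E := fun z => c (g (c.symm z)) with hf
  obtain ⟨r, hr, hrs⟩ := Metric.nhds_basis_closedBall.mem_iff.1 (c.open_source.mem_nhds hps)
  have hball : ∀ y ∈ ball p r, g y ∈ ball p r := by
    intro y hy
    have h1 := hd y p
    rw [hp] at h1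
    exact mem_ball.2 (h1.trans_lt hy)
  set V : Set E := c.target ∩ c.symm ⁻¹' ball p r with hVd
  have hV : IsOpen V := c.continuousOn_symm.isOpen_inter_preimage c.open_target isOpen_ball
  have hfV : MapsTo f V V := by
    intro z hz
    have h1 : g (c.symm z) ∈ ball p r := hball _ hz.2
    have h2 : g (c.symm z) ∈ c.source := hrs (ball_subset_closedBall h1)
    refine ⟨c.map_source h2, ?_⟩
    simp only [hf, mem_preimage, c.left_inv h2]
    exact h1
  have hfd : DifferentiableOn ℂ f V := by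
    intro z hz
    have h2 : g (c.symm z) ∈ c.source := hrs (ball_subset_closedBall (hball _ hz.2))
    have k1 : MDifferentiableAt 𝓘(ℂ, E) 𝓘(ℂ, E) c.symm z :=
      ((contMDiffOn_symm_of_mem_maximalAtlas hcm).contMDiffAt
        (c.open_target.mem_nhds hz.1)).mdifferentiableAt (by simp)
    have k2 : MDifferentiableAt 𝓘(ℂ, E) 𝓘(ℂ, E) g (c.symm z) := hg _
    have k3 : MDifferentiableAt 𝓘(ℂ, E) 𝓘(ℂ, E) c (g (c.symm z)) :=
      ((contMDiffOn_of_mem_maximalAtlas hcm).contMDiffAt
        (c.open_source.mem_nhds h2)).mdifferentiableAt (by simp)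
    have k4 := k3.comp z (k2.comp z k1)
    exact k4.differentiableAt.differentiableWithinAt
  obtain ⟨C, hC⟩ : ∃ C : ℝ, ∀ z ∈ V, ‖z‖ ≤ C := by
    have h1 : IsCompact (c '' closedBall p r) :=
      (isCompact_closedBall p r).image_of_continuousOn (c.continuousOn.mono hrs)
    obtain ⟨C, hC⟩ := h1.isBounded.exists_norm_le
    refine ⟨C, fun z hz => hC z ⟨c.symm z, ball_subset_closedBall hz.2, c.right_inv hz.1⟩⟩
  have hzV : c p ∈ V := by
    refine ⟨c.map_source hps, ?_⟩
    simp only [mem_preimage, c.left_inv hps]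
    exact mem_ball_self hr
  have hfix : f (c p) = c p := by simp only [hf, c.left_inv hps, hp]
  have hder : HasFDerivAt f (dend (E := E) g p) (c p) := H805.hasFDerivAt_chart hg hp
  obtain ⟨R, hR, hRV⟩ := Metric.isOpen_iff.1 hV (c p) hzV
  refine ⟨2 * C / R, fun k v => ?_⟩
  have h1 := hder.iterate hfix k
  have h2 := H661.cauchy_est hR ((hfd.iterate hfV k).mono hRV)
    (fun y hy => hC _ ((hfV.iterate k) (hRV hy)))
  rw [h1.fderiv] at h2
  exact (ContinuousLinearMap.le_opNorm _ _).trans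
    (mul_le_mul_of_nonneg_right h2 (norm_nonneg v))

variable [IsManifold 𝓘(ℝ, E) ∞ M]
  [RiemannianBundle (fun x : M => TangentSpace 𝓘(ℝ, E) x)]
  [IsContMDiffRiemannianBundle 𝓘(ℝ, E) ∞ E (fun x : M => TangentSpace 𝓘(ℝ, E) x)]
  [IsRiemannianManifold 𝓘(ℝ, E) M]

/-- the differential of a holomorphic isometry at a fixed point does not decrease lengths -/
theorem chartG_le_of_isometry (hK : IsKahler E M) {p : M} {g : M → M}
    (hg : MDifferentiable 𝓘(ℂ, E) 𝓘(ℂ, E) g) (hd : ∀ x y, dist (g x) (g y) = dist x y)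
    (hp : g p = p) (v : E) :
    chartG (chartAt E p) (chartAt E p p) v v ≤ chartG (chartAt E p) (chartAt E p p)
      ((mfderiv 𝓘(ℂ, E) 𝓘(ℂ, E) g p : E →L[ℂ] E) v)
      ((mfderiv 𝓘(ℂ, E) 𝓘(ℂ, E) g p : E →L[ℂ] E) v) := by
  have hcm : chartAt E p ∈ maximalAtlas 𝓘(ℂ, E) 1 M := chart_mem_maximalAtlas p
  have hder := (H805.hasFDerivAt_chart hg hp).restrictScalars ℝ
  have h1 := H805.length_le_of_expand hK hcm hcm (x := p) (mem_chart_source E p) (f := g)
    (by rw [hp]; exact mem_chart_source E p) hder hg.continuous.continuousAt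
    (Eventually.of_forall fun y => (hd p y).ge) v
  rw [hp] at h1
  exact h1

/-- **The differential of a holomorphic isometry at a fixed point is diagonalizable**, with
eigenvalues of modulus one. -/
theorem exists_eigenbasis (hK : IsKahler E M) [ProperSpace M] {p : M} {f : M → M}
    (hf : MDifferentiable 𝓘(ℂ, E) 𝓘(ℂ, E) f) (hd : ∀ x y, dist (f x) (f y) = dist x y)
    (hp : f p = p) :
    ∃ (b : Module.Basis (Fin (Module.finrank ℂ E)) ℂ E) (lam : Fin (Module.finrank ℂ E) → ℂ),
      (∀ j, ‖lam j‖ = 1) ∧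
        ∀ j, (mfderiv 𝓘(ℂ, E) 𝓘(ℂ, E) f p : E → E) (b j) = lam j • b j := by
  obtain ⟨B, hB⟩ := pow_bounded hf (fun x y => (hd x y).le) hp
  set T : E →L[ℂ] E := dend (E := E) f p with hT
  change ∃ (b : Module.Basis (Fin (Module.finrank ℂ E)) ℂ E) (lam : Fin (Module.finrank ℂ E) → ℂ),
      (∀ j, ‖lam j‖ = 1) ∧ ∀ j, T (b j) = lam j • b j
  have hcm : chartAt E p ∈ maximalAtlas 𝓘(ℂ, E) 1 M := chart_mem_maximalAtlas p
  set G := chartG (chartAt E p) (chartAt E p p) with hG
  have hGT : ∀ v, G v v ≤ G (T v) (T v) := fun v => chartG_le_of_isometry hK hf hd hp v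
  have hGk : ∀ (k : ℕ) (v : E), G v v ≤ G ((T ^ k) v) ((T ^ k) v) := by
    intro k
    induction k with
    | zero => intro v; simp
    | succ k ih =>
      intro v
      rw [pow_succ, mul_apply_eq_comp]
      exact (hGT v).trans (ih (T v))
  refine eigenbasis_of_bounded hB fun v hv hlim => ?_
  have hpos : 0 < G v v := (localKahler_chartG hK hcm).pos _
    ((chartAt E p).map_source (mem_chart_source E p)) v hv
  have h1 : Tendsto (fun k : ℕ => G ((T ^ k) v) ((T ^ k) v)) atTop (𝓝 (G 0 0)) := by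
    have h2 : Continuous fun w : E => G w w := by fun_prop
    exact (h2.tendsto 0).comp hlim
  rw [map_zero] at h1
  exact absurd (ge_of_tendsto h1 (Eventually.of_forall fun k => hGk k v)) (not_le.2 hpos)

end Vale.Agent.P253.H51
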