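import Vale.Agent.P253.H348.LocMin

/-!
P253, H51: the set of the critical points of a Killing potential is totally geodesic.
-/

open scoped Manifold ContDiff Topology Bundle
open Set Metric Complex Filter Bundle IsManifold Manifold Module Vale.Agent.P253.Mfd
  Vale.Agent.P253.H577 Vale.Agent.P253.H22 Vale.Agent.P253.H202 Vale.Agent.P253.H348

set_option maxSynthPendingDepth 3
set_option linter.unusedSectionVars false

noncomputable section

namespace Vale.Agent.P253.H51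

variable {E : Type*} [NormedAddCommGroup E] [NormedSpace ℂ E] [FiniteDimensional ℂ E]
  {M : Type*} [MetricSpace M] [ChartedSpace E M]
  [IsManifold 𝓘(ℂ, E) 1 M] [IsManifold 𝓘(ℝ, E) ∞ M]
  [RiemannianBundle (fun x : M => TangentSpace 𝓘(ℝ, E) x)]
  [IsContMDiffRiemannianBundle 𝓘(ℝ, E) ∞ E (fun x : M => TangentSpace 𝓘(ℝ, E) x)]
  {ρ : ℝ → M → M} {e : OpenPartialHomeomorph M E} {A : E →L[ℂ] E} {s : ℝ} {z : E}

/-- the metric in a chart in which the flow is linear -/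
theorem chartG_lin (hρ : IsHolIsomFlow E ρ) (he : e ∈ maximalAtlas 𝓘(ℂ, E) 1 M)
    (hlin : ∀ x ∈ e.source, ρ s x ∈ e.source ∧ e (ρ s x) = A (e x)) (hz : z ∈ e.target)
    (v w : E) : chartG e (A z) (A v) (A w) = chartG e z v w := by
  have hmem : (s, z) ∈ HΩ ρ e e := ⟨hz, (hlin _ (e.map_target hz)).1⟩
  have h1 := chartG_HF hρ he he hmem v w
  have h2 : (fun w => HF ρ e e (s, w)) =ᶠ[𝓝 z] fun w => A w := by
    filter_upwards [e.open_target.mem_nhds hz] with y hy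
    simp only [HF]
    rw [(hlin _ (e.map_target hy)).2, e.right_inv hy]
  have h3 : HasFDerivAt (fun w => HF ρ e e (s, w)) (A.restrictScalars ℝ) z :=
    ((A.restrictScalars ℝ).hasFDerivAt).congr_of_eventuallyEq h2
  have h4 : HF ρ e e (s, z) = A z := h2.self_of_nhds
  rw [h3.fderiv, h4] at h1
  exact h1

/-- the derivative of the metric at a fixed point -/
theorem fderiv_lin (hρ : IsHolIsomFlow E ρ) (he : e ∈ maximalAtlas 𝓘(ℂ, E) 1 M)
    (hlin : ∀ x ∈ e.source, ρ s x ∈ e.source ∧ e (ρ s x) = A (e x)) (hz : z ∈ e.target)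
    (hA : A z = z) (u v w : E) :
    fderiv ℝ (chartG e) z (A u) (A v) (A w) = fderiv ℝ (chartG e) z u v w := by
  have her := mem_maximalAtlas_real he
  have hd : DifferentiableAt ℝ (chartG e) z :=
    ((contDiffOn_chartG her).contDiffAt (e.open_target.mem_nhds hz)).differentiableAt (by simp)
  have hdA : HasFDerivAt (chartG e) (fderiv ℝ (chartG e) z) (A.restrictScalars ℝ z) := by
    have : A.restrictScalars ℝ z = z := hA
    rw [this]
    exact hd.hasFDerivAt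
  have hcomp : HasFDerivAt (fun y => chartG e (A.restrictScalars ℝ y))
      ((fderiv ℝ (chartG e) z).comp (A.restrictScalars ℝ)) z :=
    hdA.comp z (A.restrictScalars ℝ).hasFDerivAt
  have h1 := (hcomp.clm_apply (hasFDerivAt_const (A v) z)).clm_apply (hasFDerivAt_const (A w) z)
  have h2 := (hd.hasFDerivAt.clm_apply (hasFDerivAt_const v z)).clm_apply (hasFDerivAt_const w z)
  have h3 : (fun y => chartG e (A.restrictScalars ℝ y) (A v) (A w)) =ᶠ[𝓝 z]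
      fun y => chartG e y v w := by
    filter_upwards [e.open_target.mem_nhds hz] with y hy
    exact chartG_lin hρ he hlin hy v w
  have h4 := (h1.congr_of_eventuallyEq h3.symm).unique h2
  have h5 := congrArg (fun T : E →L[ℝ] ℝ => T u) h4
  simpa using h5

/-- the Levi-Civita connection at a fixed point maps fixed vectors to a fixed vector -/
theorem christoffel_lin (hρ : IsHolIsomFlow E ρ) (he : e ∈ maximalAtlas 𝓘(ℂ, E) 1 M)
    (hlin : ∀ x ∈ e.source, ρ s x ∈ e.source ∧ e (ρ s x) = A (e x)) (hz : z ∈ e.target)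
    (hA : A z = z) {Γ : E → E → E} (hΓ : IsChristoffel e z Γ) {u v : E} (hu : A u = u)
    (hv : A v = v) : A (Γ u v) = Γ u v := by
  have her := mem_maximalAtlas_real he
  have hG : ∀ a b, chartG e z (A a) (A b) = chartG e z a b := by
    intro a b
    have h := chartG_lin hρ he hlin hz a b
    rwa [hA] at h
  have h1 : ∀ w, 2 * chartG e z (Γ u v) w = fderiv ℝ (chartG e) z u v w +
      fderiv ℝ (chartG e) z v u w - fderiv ℝ (chartG e) z w u v := by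
    intro w
    have h := hΓ u v w
    rw [fderiv_chartMetric her hz, fderiv_chartMetric her hz, fderiv_chartMetric her hz] at h
    exact h
  have h2 : ∀ w, chartG e z (Γ u v) (A w) = chartG e z (Γ u v) w := by
    intro w
    have e1 := fderiv_lin hρ he hlin hz hA u v w
    have e2 := fderiv_lin hρ he hlin hz hA v u w
    have e3 := fderiv_lin hρ he hlin hz hA w u v
    rw [hu, hv] at e1 e2 e3
    have h3 := h1 (A w)
    have h4 := h1 w
    linarith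
  have h5 : chartG e z (A (Γ u v) - Γ u v) (A (Γ u v) - Γ u v) = 0 := by
    have e1 := h2 (Γ u v)
    have e2 := chartG_symm e z (A (Γ u v)) (Γ u v)
    have e3 := hG (Γ u v) (Γ u v)
    simp only [map_sub, _root_.sub_apply]
    linarith
  by_contra hne
  exact (chartG_pos her hz _ (sub_ne_zero.2 hne)).ne' h5

/-- **the fixed point set is totally geodesic** -/
theorem geod (hρ : IsHolIsomFlow E ρ) (he : e ∈ maximalAtlas 𝓘(ℂ, E) 1 M) {B : ℝ → E →L[ℂ] E}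
    (hlin : ∀ θ : ℝ, ∀ x ∈ e.source, ρ θ x ∈ e.source ∧ e (ρ θ x) = B θ (e x))
    {Q : E →L[ℂ] E} (hQ : ∀ z, Q z = z ↔ ∀ θ : ℝ, B θ z = z) :
    ∀ z ∈ e.target, Q z = z → ∀ Γ, IsChristoffel e z Γ →
      ∀ u v, Q u = u → Q v = v → Q (Γ u v) = Γ u v :=
  fun z hz hQz _ hΓ u v hu hv => (hQ _).2 fun θ =>
    christoffel_lin hρ he (hlin θ) hz ((hQ z).1 hQz θ) hΓ ((hQ u).1 hu θ) ((hQ v).1 hv θ)

section

variable [IsRiemannianManifold 𝓘(ℝ, E) M] {h : M → ℝ} {x₀ : M}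

/-- the final statement, with the totally geodesic line -/
theorem main_final (hK : IsKahler E M) [CompleteSpace M] [NoncompactSpace M]
    [ConnectedSpace M] (hpos : ∀ x : M, PosBisectionalAt E x)
    (hh : ContMDiff 𝓘(ℝ, E) 𝓘(ℝ, ℝ) ∞ h) (hρ : IsJGradFlow E h ρ)
    (hlow : (∃ p, IsLocalMin h p) ∨ ∀ ε > 0, ∃ C, ∀ x, -(ε * dist x₀ x) - C ≤ h x) :
    (∃ P : M → M, MDifferentiable 𝓘(ℂ, E) 𝓘(ℂ, E) P ∧ (∀ x, P (P x) = P x) ∧
      (∀ x, mfderiv 𝓘(ℝ, E) 𝓘(ℝ, ℝ) h x = 0 ↔ P x = x) ∧ (∀ x, P x = x ↔ ∀ y, h x ≤ h y) ∧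
      (∀ x, ∃ γ : ℝ → M, γ 0 = x ∧ IsDescent E h γ) ∧
      (∀ γ : ℝ → M, IsDescent E h γ → ∃ C s, 0 < s ∧
        ∀ t, 0 ≤ t → dist (γ t) (P (γ 0)) ≤ C * Real.exp (-(s * t))) ∧
      ∀ q, P q = q → ∃ e ∈ maximalAtlas 𝓘(ℂ, E) 1 M, q ∈ e.source ∧ e q = 0 ∧
        (∀ (θ : ℝ), ∀ x ∈ e.source, ρ θ x ∈ e.source ∧
          e (ρ θ x) = (mfderiv 𝓘(ℂ, E) 𝓘(ℂ, E) (ρ θ) q : E → E) (e x)) ∧
        ∃ Q : E →L[ℂ] E, (∀ z, Q (Q z) = Q z) ∧
          (∀ z, Q z = z ↔ ∀ θ : ℝ, (mfderiv 𝓘(ℂ, E) 𝓘(ℂ, E) (ρ θ) q : E → E) z = z) ∧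
          (∀ z ∈ e.target, Q z = z → ∀ Γ, IsChristoffel e z Γ →
            ∀ u v, Q u = u → Q v = v → Q (Γ u v) = Γ u v) ∧
          (∀ x, x ∈ e.source ↔ P x ∈ e.source) ∧ (∀ z, z ∈ e.target ↔ Q z ∈ e.target) ∧
          ∀ x ∈ e.source, e (P x) = Q (e x)) ∧
    (((∃ p, IsLocalMax h p) ∨ ∀ ε > 0, ∃ C, ∀ x, h x ≤ ε * dist x₀ x + C) → ∀ x y, h x = h y) ∧
    ∀ O : Set M, IsOpen O → (O ∩ {x : M | mfderiv 𝓘(ℝ, E) 𝓘(ℝ, ℝ) h x = 0}).Nonempty →
      IsCompact (O ∩ {x : M | mfderiv 𝓘(ℝ, E) 𝓘(ℝ, ℝ) h x = 0}) →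
      ∃ (p : M) (b : Basis (Fin (finrank ℂ E)) ℂ E) (m : Fin (finrank ℂ E) → ℝ)
        (F : M ≃ₘ^1⟮𝓘(ℂ, E), 𝓘(ℂ, E)⟯ E), HessPosAt E h p ∧ HasWeights ρ p b m ∧
        (∀ x, mfderiv 𝓘(ℝ, E) 𝓘(ℝ, ℝ) h x = 0 ↔ x = p) ∧ IsLinearization ρ p F := by
  obtain ⟨⟨P, h1, h2, h3, h4, h5, h6, h7⟩, h8, h9⟩ := H348.main_final hK hpos hh hρ hlow
  refine ⟨⟨P, h1, h2, h3, h4, h5, h6, fun q hq => ?_⟩, h8, h9⟩
  obtain ⟨e, he, hqe, heq, hlin, Q, q1, q2, q3, q4, q5⟩ := h7 q hq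
  exact ⟨e, he, hqe, heq, hlin, Q, q1, q2,
    geod (B := fun θ => (mfderiv 𝓘(ℂ, E) 𝓘(ℂ, E) (ρ θ) q : E →L[ℂ] E)) hρ.1 he hlin q2,
    q3, q4, q5⟩

end

end Vale.Agent.P253.H51
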