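import Vale.Agent.P253.H51.Liou0
import Vale.Agent.P253.H348.LemZ
import Vale.Agent.P253.R2.H445.Defs

/-!
P253 (helper51), Lemma Z': on a complete noncompact Kähler manifold of positive bisectional
curvature every holomorphic curve `ℂ → M` with bounded image is constant.
-/

open scoped Manifold ContDiff Topology Bundle
open Set Metric Complex Filter Bundle IsManifold Manifold Vale.Agent.P253.Mfd

set_option maxSynthPendingDepth 3
set_option linter.unusedSectionVars false

noncomputable section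

namespace Vale.Agent.P253.H51

open Vale.Agent.P253.R2.H618

variable {E : Type*} [NormedAddCommGroup E] [NormedSpace ℂ E] [FiniteDimensional ℂ E]
  {M : Type*} [MetricSpace M] [ChartedSpace E M]
  [IsManifold 𝓘(ℂ, E) 1 M]

/-- a holomorphic curve with vanishing derivative in all charts is constant -/
theorem const_of_deriv_zero {f : ℂ → M} (hf : MDifferentiable 𝓘(ℂ, ℂ) 𝓘(ℂ, E) f)
    (h0 : ∀ z, ∀ e ∈ maximalAtlas 𝓘(ℂ, E) 1 M, f z ∈ e.source →
      fderiv ℝ (fun z => e (f z)) z 1 = 0) (z w : ℂ) : f z = f w := by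
  have hloc : IsLocallyConstant f := by
    rw [IsLocallyConstant.iff_eventually_eq]
    intro z
    set e := chartAt E (f z) with he'
    have he : e ∈ maximalAtlas 𝓘(ℂ, E) 1 M := chart_mem_maximalAtlas _
    have hs : f z ∈ e.source := mem_chart_source E _
    have hV : IsOpen (f ⁻¹' e.source) := hf.continuous.isOpen_preimage _ e.open_source
    obtain ⟨ρ, hρ, hball⟩ := Metric.isOpen_iff.1 hV z hs
    have hd : ∀ y ∈ ball z ρ, DifferentiableAt ℂ (fun z => e (f z)) y := by
      intro y hy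
      have h1 : MDifferentiableAt 𝓘(ℂ, E) 𝓘(ℂ, E) e (f y) :=
        ((contMDiffOn_of_mem_maximalAtlas he).contMDiffAt
          (e.open_source.mem_nhds (hball hy))).mdifferentiableAt (by simp)
      exact (h1.comp y (hf y)).differentiableAt
    have hfd : ∀ y ∈ ball z ρ, HasFDerivAt (fun z => e (f z)) (0 : ℂ →L[ℂ] E) y := by
      intro y hy
      have h1 := (hd y hy).hasFDerivAt
      have h2 := h0 y e he (hball hy)
      have h3 : fderiv ℝ (fun z => e (f z)) y = (fderiv ℂ (fun z => e (f z)) y).restrictScalars ℝ :=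
        (h1.restrictScalars ℝ).fderiv
      rw [h3] at h2
      have h4 : fderiv ℂ (fun z => e (f z)) y = 0 := by
        ext
        simpa using h2
      rwa [h4] at h1
    filter_upwards [ball_mem_nhds z hρ] with y hy
    have h5 := (convex_ball z ρ).norm_image_sub_le_of_norm_hasFDerivWithin_le
      (C := 0) (fun y hy => (hfd y hy).hasFDerivWithinAt) (fun y _ => by simp)
      (mem_ball_self hρ) hy
    rw [zero_mul, norm_le_zero_iff, sub_eq_zero] at h5
    exact e.injOn (hball hy) hs h5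
  exact hloc.apply_eq_of_preconnectedSpace z w

variable [IsManifold 𝓘(ℝ, E) ∞ M]
  [RiemannianBundle (fun x : M => TangentSpace 𝓘(ℝ, E) x)]
  [IsContMDiffRiemannianBundle 𝓘(ℝ, E) ∞ E (fun x : M => TangentSpace 𝓘(ℝ, E) x)]
  [IsRiemannianManifold 𝓘(ℝ, E) M]

/-- the distance to a point along a holomorphic curve, strict four point inequality -/
theorem four_dist {f : ℂ → M} {U : Set ℂ} (hU : IsOpen U)
    (hf : MDifferentiableOn 𝓘(ℂ, ℂ) 𝓘(ℂ, E) f U) {z : ℂ} (hz : z ∈ U)
    {e : OpenPartialHomeomorph M E} (he : e ∈ maximalAtlas 𝓘(ℂ, E) 1 M) (hs : f z ∈ e.source)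
    {q : M} {A : ℝ} (hA : LeviBound (E := E) q (f z) A) {η : ℝ} (hη : 0 < η) :
    ∀ᶠ r : ℝ in 𝓝[>] (0:ℝ), 4 * -dist (f z) q
      + (-A * chartG e (e (f z)) (fderiv ℝ (fun z => e (f z)) z 1)
        (fderiv ℝ (fun z => e (f z)) z 1) - η) * r ^ 2
      ≤ ∑ k : Fin 4, -dist (f (z + r • (I ^ (k:ℕ)))) q := by
  have hH := harmW_disc hU hf hz he hs
  have hH' : Harm e (f z) (fderiv ℝ (fun z => e (f z)) z 1)
      (fun r k => f (z + r • (I ^ (k:ℕ)))) := by
    refine ⟨hH.1, hH.2.congr (Eventually.of_forall fun r k => ?_)⟩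
    simp only [one_smul]
  filter_upwards [hA e he hs _ _ hH' η hη] with r hr
  rw [Finset.sum_neg_distrib]
  linarith

/-- **Lemma Z'**: every holomorphic curve with bounded image is constant -/
theorem entire_const (hK : IsKahler E M) [CompleteSpace M] [NoncompactSpace M]
    (hpos : ∀ x : M, PosBisectionalAt E x) (hnn : ∀ x : M, NonnegBisectionalAt E x)
    {f : ℂ → M} (hf : MDifferentiable 𝓘(ℂ, ℂ) 𝓘(ℂ, E) f)
    (hb : Bornology.IsBounded (range f)) (z w : ℂ) : f z = f w := by
  have hP : ProperSpace M := properSpace_riemannian E M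
  refine const_of_deriv_zero hf (fun z₀ e he hs => ?_) z w
  by_contra hne
  obtain ⟨R, hR⟩ := hb.subset_closedBall (f 0)
  have hdR : ∀ z, dist (f z) (f 0) ≤ R := fun z => hR ⟨z, rfl⟩
  obtain ⟨c, hc, L₀, hL₀, hlev⟩ := H348.levi_strict_compact hK hnn
    (isCompact_closedBall (f 0) R) fun x _ => hpos x
  obtain ⟨q, hq⟩ := exists_far (f 0) (R + L₀)
  have hfar : ∀ z, L₀ ≤ dist (f z) q := by
    intro z
    have h2 := dist_triangle (f 0) (f z) q
    rw [dist_comm (f 0) (f z)] at h2
    linarith [hdR z]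
  set u : ℂ → ℝ := fun z => -dist (f z) q with hu
  have huc : Continuous u := (hf.continuous.dist continuous_const).neg
  have hMOn : MDifferentiableOn 𝓘(ℂ, ℂ) 𝓘(ℂ, E) f univ := hf.mdifferentiableOn
  have hbnd : ∀ z, LeviBound (E := E) q (f z) (-c) := fun z =>
    hlev _ (by rw [mem_closedBall]; exact hdR z) q (hfar z)
  have hfour : Four u := by
    intro z η hη
    have hes : f z ∈ (chartAt E (f z)).source := mem_chart_source E _
    have hem : chartAt E (f z) ∈ maximalAtlas 𝓘(ℂ, E) 1 M := chart_mem_maximalAtlas _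
    filter_upwards [four_dist isOpen_univ hMOn (mem_univ z) hem hes (hbnd z) hη] with r hr
    refine le_trans ?_ hr
    have hN := G_nonneg (localKahler_chartG hK hem) ((chartAt E (f z)).map_source hes)
      (fderiv ℝ (fun z' => (chartAt E (f z)) (f z')) z 1)
    have h1 : 0 ≤ c * chartG (chartAt E (f z)) (chartAt E (f z) (f z))
      (fderiv ℝ (fun z' => (chartAt E (f z)) (f z')) z 1)
      (fderiv ℝ (fun z' => (chartAt E (f z)) (f z')) z 1) * r ^ 2 := by positivity
    rw [neg_neg]
    simp only [hu]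
    nlinarith
  have hconst := liouville_plane huc hfour (B := 0) fun z => by
    simp only [hu]
    linarith [dist_nonneg (x := f z) (y := q)]
  set N := chartG e (e (f z₀)) (fderiv ℝ (fun z => e (f z)) z₀ 1)
    (fderiv ℝ (fun z => e (f z)) z₀ 1) with hN
  have hN0 : 0 < N := chartG_pos (mem_maximalAtlas_real he) (e.map_source hs) _ hne
  obtain ⟨r, hr, hr0⟩ := ((four_dist isOpen_univ hMOn (mem_univ z₀) he hs (hbnd z₀)
    (show 0 < c * N / 2 by positivity)).and
      (self_mem_nhdsWithin : ∀ᶠ r : ℝ in 𝓝[>] (0:ℝ), r ∈ Ioi (0:ℝ))).exists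
  have hr0' : 0 < r := hr0
  have h1 : ∀ k : Fin 4, -dist (f (z₀ + r • (I ^ (k:ℕ)))) q = u z₀ := fun k => hconst _ _
  simp only [h1, Finset.sum_const, Finset.card_univ, Fintype.card_fin, nsmul_eq_mul] at hr
  rw [neg_neg, ← hN] at hr
  push_cast at hr
  have h2 : 0 < (c * N - c * N / 2) * r ^ 2 := by
    have : c * N - c * N / 2 = c * N / 2 := by ring
    rw [this]
    positivity
  simp only [hu] at hr
  linarith

/-- the form for actions of the additive group of complex numbers -/
theorem orbit_const (hK : IsKahler E M) [CompleteSpace M] [NoncompactSpace M]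
    (hpos : ∀ x : M, PosBisectionalAt E x) (hnn : ∀ x : M, NonnegBisectionalAt E x)
    {ψ : ℂ → M → M} (hψ : R2.IsHolCFlow E ψ) {x : M}
    (hb : Bornology.IsBounded (range fun ζ => ψ ζ x)) (ζ : ℂ) : ψ ζ x = x := by
  have hf : MDifferentiable 𝓘(ℂ, ℂ) 𝓘(ℂ, E) (fun ζ : ℂ => ψ ζ x) := by
    have h1 : ContMDiff 𝓘(ℂ, ℂ) (𝓘(ℂ, ℂ).prod 𝓘(ℂ, E)) 1 (fun ζ : ℂ => (ζ, x)) :=
      contMDiff_id.prodMk contMDiff_const
    exact (hψ.holo.comp h1).mdifferentiable (by simp)
  have h2 := entire_const hK hpos hnn hf hb ζ 0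
  rwa [hψ.zero] at h2

end Vale.Agent.P253.H51
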