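import Vale.Agent.P253.R2.H618.Exh2

/-!
P253 (helper51): Liouville theorem in the plane, in terms of four point sums.
-/

open scoped Topology
open Set Metric Complex Filter

noncomputable section

namespace Vale.Agent.P253.H51

open Vale.Agent.P253.R2.H618

/-- four point sums of the logarithm -/
theorem four_log {z : ℂ} {r : ℝ} (hr : 0 < r) (hrz : r < ‖z‖) :
    ∑ k : Fin 4, Real.log ‖z + r • (I ^ (k:ℕ))‖ ≤ 4 * Real.log ‖z‖ + r ^ 4 / ‖z‖ ^ 4 := by
  have hz0 : 0 < ‖z‖ := hr.trans hrz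
  have hne : ∀ k : ℕ, z + r • (I ^ k : ℂ) ≠ 0 := by
    intro k h0
    have h1 : z = -(r • (I ^ k : ℂ)) := eq_neg_of_add_eq_zero_left h0
    have h2 : ‖z‖ = r := by
      rw [h1, norm_neg, norm_smul, norm_pow, norm_I, one_pow, mul_one, Real.norm_of_nonneg hr.le]
    linarith
  have hprod : ∏ k : Fin 4, (z + r • (I ^ (k:ℕ) : ℂ)) = z ^ 4 - (r:ℂ) ^ 4 := by
    rw [Fin.prod_univ_four]
    have h3 : (I : ℂ) ^ 3 = -I := by rw [pow_succ, I_sq]; ring
    simp only [Fin.val_zero, Fin.val_one, Fin.val_two, pow_zero, pow_one, I_sq,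
      show ((3 : Fin 4) : ℕ) = 3 from rfl, h3, Complex.real_smul]
    have : I ^ 2 = -1 := I_sq
    linear_combination (-(r:ℂ)^2 * z^2 + (r:ℂ)^4) * this
  have hlog : Real.log (∏ k : Fin 4, ‖z + r • (I ^ (k:ℕ) : ℂ)‖) =
      ∑ k : Fin 4, Real.log ‖z + r • (I ^ (k:ℕ))‖ :=
    Real.log_prod fun k _ => norm_ne_zero_iff.2 (hne k)
  rw [← hlog, ← norm_prod, hprod]
  have h1 : ‖z ^ 4 - (r:ℂ) ^ 4‖ ≤ ‖z‖ ^ 4 * (1 + r ^ 4 / ‖z‖ ^ 4) := by
    refine (norm_sub_le _ _).trans (le_of_eq ?_)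
    rw [norm_pow, norm_pow, Complex.norm_real, Real.norm_of_nonneg hr.le]
    field_simp
  have h2 : 0 < ‖z ^ 4 - (r:ℂ) ^ 4‖ := by
    rw [← hprod, norm_prod]
    exact Finset.prod_pos fun k _ => norm_pos_iff.2 (hne k)
  calc Real.log ‖z ^ 4 - (r:ℂ) ^ 4‖ ≤ Real.log (‖z‖ ^ 4 * (1 + r ^ 4 / ‖z‖ ^ 4)) :=
        Real.log_le_log h2 h1
    _ = 4 * Real.log ‖z‖ + Real.log (1 + r ^ 4 / ‖z‖ ^ 4) := by
        rw [Real.log_mul (by positivity) (by positivity), Real.log_pow]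
        norm_num
    _ ≤ 4 * Real.log ‖z‖ + r ^ 4 / ‖z‖ ^ 4 := by
        have h3 := Real.log_le_sub_one_of_pos (show 0 < 1 + r ^ 4 / ‖z‖ ^ 4 by positivity)
        linarith

/-- four point sums of the squared norm -/
theorem four_sq (z : ℂ) (r : ℝ) :
    ∑ k : Fin 4, ‖z + r • (I ^ (k:ℕ))‖ ^ 2 = 4 * ‖z‖ ^ 2 + 4 * r ^ 2 := by
  rw [Fin.sum_univ_four]
  have h3 : (I : ℂ) ^ 3 = -I := by rw [pow_succ, I_sq]; ring
  simp only [Fin.val_zero, Fin.val_one, Fin.val_two, pow_zero, pow_one, I_sq,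
    show ((3 : Fin 4) : ℕ) = 3 from rfl, h3, Complex.real_smul]
  simp only [← Complex.normSq_eq_norm_sq, Complex.normSq_apply, Complex.add_re, Complex.add_im,
    Complex.mul_re, Complex.mul_im, Complex.ofReal_re, Complex.ofReal_im, Complex.neg_re,
    Complex.neg_im, Complex.one_re, Complex.one_im, Complex.I_re, Complex.I_im]
  ring

/-- the four point inequality (subharmonicity) -/
def Four (u : ℂ → ℝ) : Prop :=
  ∀ z : ℂ, ∀ η > 0, ∀ᶠ r : ℝ in 𝓝[>] (0:ℝ),
    4 * u z - η * r ^ 2 ≤ ∑ k : Fin 4, u (z + r • (I ^ (k:ℕ)))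

/-- the exterior maximum principle on an annulus -/
theorem annulus_max {u : ℂ → ℝ} (hu : Continuous u) (h : Four u) {m ε δ R : ℝ} (hε : 0 ≤ ε)
    (hδ : 0 < δ) (hR : 1 ≤ R)
    (h1 : ∀ z : ℂ, ‖z‖ = 1 → u z ≤ m) (h2 : ∀ z : ℂ, ‖z‖ = R → u z ≤ m + ε * Real.log R)
    {z : ℂ} (hz1 : 1 ≤ ‖z‖) (hz2 : ‖z‖ ≤ R) :
    u z - ε * Real.log ‖z‖ + δ * ‖z‖ ^ 2 ≤ m + δ * R ^ 2 := by
  set w : ℂ → ℝ := fun z => u z - ε * Real.log ‖z‖ + δ * ‖z‖ ^ 2 with hw
  set K : Set ℂ := {z : ℂ | 1 ≤ ‖z‖ ∧ ‖z‖ ≤ R} with hK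
  have hKc : IsCompact K := by
    refine Metric.isCompact_of_isClosed_isBounded ?_ ?_
    · exact (isClosed_le continuous_const continuous_norm).inter
        (isClosed_le continuous_norm continuous_const)
    · exact (isBounded_closedBall (x := (0:ℂ)) (r := R)).subset fun z hz => by
        rw [mem_closedBall, dist_zero_right]; exact hz.2
  have hwc : ContinuousOn w K := by
    have hl : ContinuousOn (fun z : ℂ => Real.log ‖z‖) K := by
      refine ContinuousOn.log continuous_norm.continuousOn fun z hz => ?_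
      have : 1 ≤ ‖z‖ := hz.1
      positivity
    exact (hu.continuousOn.sub (continuousOn_const.mul hl)).add
      (continuousOn_const.mul (continuous_norm.pow 2).continuousOn)
  obtain ⟨y, hy, hmax⟩ := hKc.exists_isMaxOn ⟨z, hz1, hz2⟩ hwc
  have hle : w z ≤ w y := hmax ⟨hz1, hz2⟩
  refine hle.trans ?_
  rcases hy.1.eq_or_lt with h3 | h3
  · -- inner boundary
    have h4 := h1 y h3.symm
    simp only [hw, ← h3, Real.log_one]
    have : (1:ℝ) ^ 2 ≤ R ^ 2 := pow_le_pow_left₀ zero_le_one hR 2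
    nlinarith
  rcases hy.2.eq_or_lt with h4 | h4
  · have h5 := h2 y h4
    simp only [hw, h4]
    linarith
  · -- interior
    exfalso
    have hy0 : 0 < ‖y‖ := by linarith
    have e1 : ∀ᶠ r : ℝ in 𝓝[>] (0:ℝ), 0 < r := self_mem_nhdsWithin
    have e2 : ∀ᶠ r : ℝ in 𝓝[>] (0:ℝ), r < min (min (‖y‖ - 1) (R - ‖y‖)) 1 :=
      (eventually_lt_nhds (by
        refine lt_min (lt_min ?_ ?_) one_pos <;> linarith)).filter_mono nhdsWithin_le_nhds
    have e3 : ∀ᶠ r : ℝ in 𝓝[>] (0:ℝ), ε * r ^ 2 < δ := by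
      have hc : Tendsto (fun r : ℝ => ε * r ^ 2) (𝓝[>] (0:ℝ)) (𝓝 0) := by
        have h5 : Continuous fun r : ℝ => ε * r ^ 2 := by fun_prop
        have := (h5.tendsto 0).mono_left (nhdsWithin_le_nhds (s := Ioi (0:ℝ)))
        simpa using this
      exact hc.eventually (eventually_lt_nhds hδ)
    obtain ⟨r, ⟨⟨hr1, hr2⟩, hr3⟩, hr4⟩ := (((h y δ hδ).and e1).and e2 |>.and e3).exists
    have hr2' : r < ‖y‖ - 1 := hr3.trans_le ((min_le_left _ _).trans (min_le_left _ _))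
    have hr3' : r < R - ‖y‖ := hr3.trans_le ((min_le_left _ _).trans (min_le_right _ _))
    have hn : ∀ j : ℕ, ‖r • (I ^ j : ℂ)‖ = r := by
      intro j
      rw [norm_smul, norm_pow, norm_I, one_pow, mul_one, Real.norm_of_nonneg hr2.le]
    have hmem : ∀ k : Fin 4, y + r • (I ^ (k:ℕ) : ℂ) ∈ K := by
      intro k
      constructor
      · have h5 := norm_sub_norm_le y (-(r • (I ^ (k:ℕ) : ℂ)))
        rw [norm_neg, hn, sub_neg_eq_add] at h5
        linarith
      · have h5 := norm_add_le y (r • (I ^ (k:ℕ) : ℂ))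
        rw [hn] at h5
        linarith
    have hsum : ∑ k : Fin 4, w (y + r • (I ^ (k:ℕ))) ≤ ∑ k : Fin 4, w y :=
      Finset.sum_le_sum fun k _ => hmax (hmem k)
    have h6 := four_log hr2 (show r < ‖y‖ by linarith)
    have h7 := four_sq y r
    have h8 : ∑ k : Fin 4, w (y + r • (I ^ (k:ℕ))) =
        ∑ k : Fin 4, u (y + r • (I ^ (k:ℕ))) - ε * ∑ k : Fin 4, Real.log ‖y + r • (I ^ (k:ℕ))‖
          + δ * ∑ k : Fin 4, ‖y + r • (I ^ (k:ℕ))‖ ^ 2 := by
      rw [Finset.mul_sum, Finset.mul_sum, ← Finset.sum_sub_distrib, ← Finset.sum_add_distrib]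
    rw [h8, h7] at hsum
    simp only [Finset.sum_const, Finset.card_univ, Fintype.card_fin, nsmul_eq_mul, hw] at hsum
    push_cast at hsum
    have h9 : r ^ 4 / ‖y‖ ^ 4 ≤ r ^ 4 := by
      rw [div_le_iff₀ (by positivity)]
      have : (1:ℝ) ≤ ‖y‖ ^ 4 := one_le_pow₀ h3.le
      nlinarith [pow_pos hr2 4]
    have h10 : ε * r ^ 4 < δ * r ^ 2 := by
      have : ε * r ^ 4 = (ε * r ^ 2) * r ^ 2 := by ring
      rw [this]
      exact mul_lt_mul_of_pos_right hr4 (by positivity)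
    have h11 := mul_le_mul_of_nonneg_left h6 hε
    have h12 := mul_le_mul_of_nonneg_left h9 hε
    have h13 : 0 < δ * r ^ 2 := by positivity
    nlinarith

/-- a bounded above subharmonic function is bounded by its maximum on the unit circle -/
theorem exterior_le {u : ℂ → ℝ} (hu : Continuous u) (h : Four u) {B : ℝ} (hB : ∀ z, u z ≤ B)
    {m : ℝ} (h1 : ∀ z : ℂ, ‖z‖ = 1 → u z ≤ m) {z : ℂ} (hz : 1 ≤ ‖z‖) : u z ≤ m := by
  refine le_of_forall_pos_le_add fun τ hτ => ?_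
  -- choose ε with ε log|z| small
  set ε : ℝ := τ / (2 * (Real.log ‖z‖ + 1)) with hεd
  have hlog : 0 ≤ Real.log ‖z‖ := Real.log_nonneg hz
  have hε : 0 < ε := by positivity
  have hεz : ε * Real.log ‖z‖ ≤ τ / 2 := by
    rw [hεd, div_mul_eq_mul_div, div_le_iff₀ (by positivity)]
    nlinarith
  -- choose R
  obtain ⟨R, hR1, hR2⟩ : ∃ R : ℝ, ‖z‖ ≤ R ∧ B ≤ m + ε * Real.log R := by
    have ht : Tendsto (fun R : ℝ => m + ε * Real.log R) atTop atTop :=
      tendsto_atTop_add_const_left _ _ (Real.tendsto_log_atTop.const_mul_atTop hε)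
    obtain ⟨R, hR⟩ := ((eventually_ge_atTop ‖z‖).and (ht.eventually_ge_atTop B)).exists
    exact ⟨R, hR.1, hR.2⟩
  have hR : 1 ≤ R := hz.trans hR1
  set δ : ℝ := τ / (2 * (R ^ 2 + 1)) with hδd
  have hδ : 0 < δ := by positivity
  have hδR : δ * R ^ 2 ≤ τ / 2 := by
    rw [hδd, div_mul_eq_mul_div, div_le_iff₀ (by positivity)]
    nlinarith [sq_nonneg R]
  have h2 := annulus_max hu h hε.le hδ hR h1 (fun y _ => (hB y).trans hR2) hz hR1
  have h3 : 0 ≤ δ * ‖z‖ ^ 2 := by positivity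
  linarith

/-- propagation of a maximum along circles -/
theorem max_circle {u : ℂ → ℝ} (hu : Continuous u) (h : Four u) {z₀ : ℂ}
    (hmax : ∀ z, u z ≤ u z₀) (z : ℂ) : u z = u z₀ := by
  by_contra hne
  have hlt : u z < u z₀ := lt_of_le_of_ne (hmax z) hne
  have hzz : z ≠ z₀ := fun h => hne (by rw [h])
  set R := dist z z₀ with hR
  have hR0 : 0 < R := dist_pos.2 hzz
  have h1 := four_submean (u := u) (c := z₀) hR0 hu.continuousOn fun y _ η hη => h y η hη
  have hci : Continuous fun θ : ℝ => u (circleMap z₀ R θ) := hu.comp (continuous_circleMap _ _)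
  rw [Real.circleAverage_def, smul_eq_mul] at h1
  obtain ⟨θ, hθ1, hθ2⟩ : ∃ θ ∈ Icc (0:ℝ) (2 * Real.pi), circleMap z₀ R θ = z := by
    have hmem : z ∈ sphere z₀ R := by rw [mem_sphere]
    rw [← abs_of_pos hR0, ← image_circleMap_Ioc] at hmem
    obtain ⟨θ, hθ, h2⟩ := hmem
    exact ⟨θ, Ioc_subset_Icc_self hθ, h2⟩
  have hpos : 0 < ∫ θ in (0:ℝ)..(2 * Real.pi), (u z₀ - u (circleMap z₀ R θ)) := by
    refine intervalIntegral.integral_pos (by positivity)
      (continuous_const.sub hci).continuousOn (fun θ _ => ?_) ⟨θ, hθ1, ?_⟩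
    · exact sub_nonneg.2 (hmax _)
    · rw [hθ2]; exact sub_pos.2 hlt
  rw [intervalIntegral.integral_sub intervalIntegrable_const (hci.intervalIntegrable _ _),
    intervalIntegral.integral_const, sub_zero, smul_eq_mul] at hpos
  have h3 : (2 * Real.pi)⁻¹ * ∫ θ in (0:ℝ)..(2 * Real.pi), u (circleMap z₀ R θ) < u z₀ := by
    rw [inv_mul_lt_iff₀ (by positivity)]
    linarith only [hpos]
  exact absurd h1 (not_le.2 h3)

/-- **Liouville**: a continuous function on the plane which is bounded above and satisfies the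
four point inequality is constant -/
theorem liouville_plane {u : ℂ → ℝ} (hu : Continuous u) (h : Four u) {B : ℝ}
    (hB : ∀ z, u z ≤ B) (z w : ℂ) : u z = u w := by
  obtain ⟨z₀, hz₀, hmax⟩ := (isCompact_closedBall (0:ℂ) 1).exists_isMaxOn
    ⟨0, mem_closedBall_self zero_le_one⟩ hu.continuousOn
  have hall : ∀ y, u y ≤ u z₀ := by
    intro y
    rcases le_total ‖y‖ 1 with h1 | h1
    · exact hmax (by rwa [mem_closedBall, dist_zero_right])
    · exact exterior_le hu h hB (fun x hx => hmax (by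
        rw [mem_closedBall, dist_zero_right, hx])) h1
  rw [max_circle hu h hall z, max_circle hu h hall w]

end Vale.Agent.P253.H51
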